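import Vale.Agent.P042.H452.SeamK
import Vale.Agent.P042.H359.Bridge
import Vale.Agent.P042.H482.KerS
import Vale.Agent.P042.H945.StS
import Vale.Agent.P042.H245.PPf
import Vale.Agent.P042.H74.SeamG
import Vale.Agent.P042.H74.ProdDns
import Vale.Agent.P042.H74.NumS
import Vale.Agent.P042.H758.QoneBound

set_option autoImplicit false

/-!
P042, target S, row S.5b: the objects of `LOWERS GW StS`, and the literal statements of the leaves.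
`l = log P`; tiny primes `p ≤ l ^ E`; product space: primes `l ^ E < p ≤ P ^ 2 / l ^ A'`.
-/

namespace Vale.Agent.P042.H419

open Polynomial Finset Vale.Agent.P042.SS Vale.Agent.P042.H74 Vale.Agent.P042.H739
  Vale.Agent.P042.H452 Vale.Agent.P042.H945 Vale.Agent.P042.H359

/-- tiny primes -/
noncomputable def Ts (E : ℕ) (P : ℝ) : Finset ℕ :=
  (range (⌊Real.log P ^ E⌋₊ + 1)).filter Nat.Prime

/-- the weight on the integers -/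
noncomputable def GG (N' : ℕ) (mu : ℕ → ℝ) (n : ℤ) : ℝ :=
  if 1 ≤ n then (N' : ℝ) * mu n.toNat else 0

/-- the primes of the product space -/
structure PrmS {ι : Type*} (E A' : ℕ) (P : ℝ) (prm : ι → ℕ) : Prop where
  inj : Function.Injective prm
  prime : ∀ i, (prm i).Prime
  lo : ∀ i, Real.log P ^ E < (prm i : ℝ)
  hi : ∀ i, (prm i : ℝ) ≤ P ^ 2 / Real.log P ^ A'
  all : ∀ p : ℕ, p.Prime → Real.log P ^ E < (p : ℝ) → (p : ℝ) ≤ P ^ 2 / Real.log P ^ A' →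
    ∃ i, prm i = p

/-- the objects on the integers -/
structure SObj (k R E C : ℕ) (κ P : ℝ) (f : ℤ[X]) (N' : ℕ) (mu : ℕ → ℝ)
    (q1 z0 Hw h0 c1 c2 : ℕ) : Prop where
  hk : 2 ≤ k
  hR : 1 ≤ R
  deg : f.natDegree = k
  lead : 0 < f.leadingCoeff
  cont : ∀ g : ℤ, (∀ j : ℕ, 1 ≤ j → g ∣ f.coeff j) → g ∣ (R : ℤ)
  coef : ∀ j : ℕ, |(f.coeff j : ℝ)| ≤ Real.exp (2 * k * κ * P)
  st : StS1 k κ C P N' mu
  base : Base6 f κ P N' (GG N' mu)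
  tiny : TinyD f (Ts E P) (Vp k R) q1 (z0 : ℤ)
  z0lt : z0 < q1
  qn_le : (qnul f q1 z0 : ℝ) ≤ (sfac k * R : ℝ) ^ 2 * Real.exp (Real.log 4 * Real.log P ^ E)
  q1_le : (q1 : ℝ) ≤ (sfac k * R : ℝ) * Real.exp (Real.log 4 * Real.log P ^ E)
  w8 : 8 * (Hw + h0) ≤ N'
  w16 : N' ≤ 16 * Hw
  w1000 : N' ≤ 1000 * h0
  wh : 2 * h0 ≤ Hw
  h0pos : 1 ≤ h0
  wN : 3 * Hw + 2 * h0 ≤ N'
  c1lt : c1 < qnul f q1 z0
  c2lt : c2 < qnul f q1 z0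
  cls : ((qnul f q1 z0 : ℕ) : ℤ) ∣ (c1 : ℤ) - c2 - f.eval (z0 : ℤ)
  m1 : (h0 : ℝ) / 2 ≤ qnul f q1 z0 *
    ∑ n ∈ cellZ (qnul f q1 z0) c1 (3 * Hw + h0 + 1) (3 * Hw + 2 * h0), GG N' mu n
  m2 : (h0 : ℝ) / 2 ≤ qnul f q1 z0 * ∑ n ∈ cellZ (qnul f q1 z0) c2 1 h0, GG N' mu n

/-- the kernels of 954's one prime step, all primes at once (output of `H482.ker_S`) -/
structure KPack {ι : Type*} [Fintype ι] [DecidableEq ι] (prm : ι → ℕ) [∀ i, NeZero (prm i)]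
    (g : ℤ[X]) (w : ∀ i, ZMod (prm i) → ℝ) (c eps : ℝ)
    (K : ∀ i, ZMod (prm i) → ZMod (prm i) → ℝ) (e e' : ∀ i, ZMod (prm i) → ℝ)
    (u u' : ∀ i, ZMod (prm i) → ℝ) (s0 : ∀ i, ZMod (prm i) → ZMod (prm i) → ℝ)
    (rho ee : ι → ℝ) : Prop where
  rel : ∀ i x y, 1 + K i x y =
    (1 + e i x) * (1 + kN g (prm i) ((x.val : ℤ) - y.val)) * (1 + e' i y)
  pos : ∀ i x, 0 < 1 + e i x
  pos' : ∀ i x, 0 < 1 + e' i x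
  le4 : ∀ i x, |e i x| ≤ 4
  le4' : ∀ i x, |e' i x| ≤ 4
  nme : ∀ i, H954.nm (fun _ : ZMod (prm i) => (Fintype.card (ZMod (prm i)) : ℝ)⁻¹) (e i) ≤
    16 * (c / √(prm i)) * √eps
  nme' : ∀ i, H954.nm (fun _ : ZMod (prm i) => (Fintype.card (ZMod (prm i)) : ℝ)⁻¹) (e' i) ≤
    16 * (c / √(prm i)) * √eps
  op : ∀ i, H954.OpB (w i) (w i) (K i) (48 * (c / √(prm i)))
  ob : H365.OB w K (fun _ => 0) u u' s0 rho ee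
  rho_le : ∀ i, rho i ≤ 48 * c / √(prm i)
  see : ∑ i, ee i ≤ 1 / 32

/-- the marginals of the whole law -/
noncomputable def wS {ι : Type*} (prm : ι → ℕ) (N' : ℕ) (mu : ℕ → ℝ) (i : ι)
    (a : ZMod (prm i)) : ℝ := H599.cm mu 1 N' (prm i) a.val

/-- first window and class -/
noncomputable def cS1 (f : ℤ[X]) (q1 z0 Hw h0 c1 : ℕ) : Finset ℤ :=
  cellZ (qnul f q1 z0) c1 (3 * Hw + h0 + 1) (3 * Hw + 2 * h0)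

/-- second window and class -/
noncomputable def cS2 (f : ℤ[X]) (q1 z0 h0 c2 : ℕ) : Finset ℤ :=
  cellZ (qnul f q1 z0) c2 1 h0

/-- number of pins and truncation -/
structure NumD (k : ℕ) (th P : ℝ) (D m0 : ℕ) : Prop where
  lo : th * P / Real.log P ≤ D
  hi : 16 * k * D * Real.log P ≤ P
  hi' : 10000 * D * Real.log P ≤ P
  m16 : 16 * m0 ≤ D
  mlo : (D : ℝ) ≤ 16 * (m0 + 1)

/-! ### literal leaves -/

/-- **LEAF K** (51): the kernels -/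
def LeafK : Prop := ∀ (k R E A' C : ℕ) (κ : ℝ), 2 ≤ k → 1 ≤ R → 20 ≤ E → 20 ≤ A' → 20 ≤ C →
  0 < κ → κ ≤ 1 / 8 → ∃ P0 : ℝ, ∀ P : ℝ, P0 ≤ P →
  ∀ (ι : Type) [Fintype ι] [DecidableEq ι] (prm : ι → ℕ) [∀ i, NeZero (prm i)] (f : ℤ[X])
    (N' : ℕ) (mu : ℕ → ℝ) (q1 z0 Hw h0 c1 c2 : ℕ), PrmS E A' P prm →
    SObj k R E C κ P f N' mu q1 z0 Hw h0 c1 c2 →
  ∃ (K : ∀ i, ZMod (prm i) → ZMod (prm i) → ℝ) (e e' : ∀ i, ZMod (prm i) → ℝ)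
    (u u' : ∀ i, ZMod (prm i) → ℝ) (s0 : ∀ i, ZMod (prm i) → ZMod (prm i) → ℝ) (rho ee : ι → ℝ),
    KPack prm (fer f q1 z0) (wS prm N' mu) (4 * k) (1 / Real.log P ^ 14) K e e' u u' s0 rho ee

/-- **LEAF M** (L3): the main part -/
def LeafM : Prop := ∀ (k R E A' C : ℕ) (κ th : ℝ), 2 ≤ k → 1 ≤ R → 20 ≤ E → 20 ≤ A' →
  E + 30 ≤ C → 0 < κ → κ ≤ 1 / 8 → 0 < th → ∃ P0 : ℝ, ∀ P : ℝ, P0 ≤ P →
  ∀ (ι : Type) [Fintype ι] [DecidableEq ι] (prm : ι → ℕ) [∀ i, NeZero (prm i)] (f : ℤ[X])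
    (N' : ℕ) (mu : ℕ → ℝ) (q1 z0 Hw h0 c1 c2 : ℕ), PrmS E A' P prm →
    SObj k R E C κ P f N' mu q1 z0 Hw h0 c1 c2 →
  ∀ (K : ∀ i, ZMod (prm i) → ZMod (prm i) → ℝ) (e e' : ∀ i, ZMod (prm i) → ℝ)
    (u u' : ∀ i, ZMod (prm i) → ℝ) (s0 : ∀ i, ZMod (prm i) → ZMod (prm i) → ℝ) (rho ee : ι → ℝ),
    KPack prm (fer f q1 z0) (wS prm N' mu) (4 * k) (1 / Real.log P ^ 14) K e e' u u' s0 rho ee →
  ∀ D m0 : ℕ, NumD k th P D m0 →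
  |∑ B ∈ low ι m0, ∑ x, ∑ y, push (redZ prm) (cS1 f q1 z0 Hw h0 c1) (GG N' mu) x *
    push (redZ prm) (cS2 f q1 z0 h0 c2) (GG N' mu) y * ∏ i ∈ B, K i (x i) (y i) - 1| ≤ 3 / 4

/-- **LEAF T** (48): the top part; `C1` is the exponent of the sieve weight -/
def LeafT (C1 : ℝ) : Prop := ∀ (k R : ℕ), 2 ≤ k → 1 ≤ R → ∃ E A' C0 : ℕ, 20 ≤ E ∧ 20 ≤ A' ∧
  ∀ (C : ℕ) (κ th : ℝ), C0 ≤ C → 0 < κ → κ ≤ 1 / 8 → 0 < th → ∃ cM : ℝ, 0 < cM ∧ cM ≤ 1 ∧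
  ∃ P0 : ℝ, ∀ P : ℝ, P0 ≤ P →
  ∀ (ι : Type) [Fintype ι] [DecidableEq ι] (prm : ι → ℕ) [∀ i, NeZero (prm i)] (f : ℤ[X])
    (N' : ℕ) (mu : ℕ → ℝ) (q1 z0 Hw h0 c1 c2 : ℕ), PrmS E A' P prm →
    SObj k R E C κ P f N' mu q1 z0 Hw h0 c1 c2 →
  ∀ (K : ∀ i, ZMod (prm i) → ZMod (prm i) → ℝ) (e e' : ∀ i, ZMod (prm i) → ℝ)
    (u u' : ∀ i, ZMod (prm i) → ℝ) (s0 : ∀ i, ZMod (prm i) → ZMod (prm i) → ℝ) (rho ee : ι → ℝ),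
    KPack prm (fer f q1 z0) (wS prm N' mu) (4 * k) (1 / Real.log P ^ 14) K e e' u u' s0 rho ee →
  ∀ D m0 M0 : ℕ, NumD k th P D m0 → M0 = ⌊Real.exp (cM * (P / Real.log P ^ 2))⌋₊ →
  ∑ B ∈ low ι m0, ∑ m2 ∈ (MM (Ts E P) prm M0).filter (fun m2 => 1 < m2),
      ‖FB (fer f q1 z0) (H245.PPf C1 (fer f q1 z0) P) (cS1 f q1 z0 Hw h0 c1)
        (cS2 f q1 z0 h0 c2) (GG N' mu) (GG N' mu)
        (fun i n m => K i (redZ prm n i) (redZ prm m i)) B m2‖ ≤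
    1 / 8 * ((∑ n ∈ cS1 f q1 z0 Hw h0 c1, GG N' mu n) * ∑ n ∈ cS2 f q1 z0 h0 c2, GG N' mu n)

end Vale.Agent.P042.H419
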