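import Vale.Agent.P042.H419.ObjE
import Vale.Agent.P042.H74.Obj

set_option autoImplicit false

/-!
P042, target S, row S.5b: `LOWERS (GWf C1) StS` from the three leaves.
-/

namespace Vale.Agent.P042.H419

open Polynomial Finset Vale.Agent.P042.SS Vale.Agent.P042.H74 Vale.Agent.P042.H739
  Vale.Agent.P042.H452 Vale.Agent.P042.H945 Vale.Agent.P042.H359 Vale.Agent.P042.H599
  Vale.Agent.P042.H758 Vale.Agent.P042.H74.NumS

section

variable {k R E C : ℕ} {κ P : ℝ} {f : ℤ[X]} {N' : ℕ} {mu : ℕ → ℝ} {q1 z0 Hw h0 c1 c2 : ℕ}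

theorem SObj.sub1 (O : SObj k R E C κ P f N' mu q1 z0 Hw h0 c1 c2) :
    cS1 f q1 z0 Hw h0 c1 ⊆ Icc (1 : ℤ) N' := by
  have := O.wN
  exact cellZ_sub (by omega) (by omega)

theorem SObj.sub2 (O : SObj k R E C κ P f N' mu q1 z0 Hw h0 c1 c2) :
    cS2 f q1 z0 h0 c2 ⊆ Icc (1 : ℤ) N' := by
  have := O.wN
  exact cellZ_sub (by omega) (by omega)

theorem SObj.qn1 (O : SObj k R E C κ P f N' mu q1 z0 Hw h0 c1 c2) : 1 ≤ qnul f q1 z0 :=
  qnul_pos z0 O.tiny.q1_pos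

theorem SObj.mass1 (O : SObj k R E C κ P f N' mu q1 z0 Hw h0 c1 c2) :
    (1 / 2000 : ℝ) * N' / qnul f q1 z0 ≤ ∑ n ∈ cS1 f q1 z0 Hw h0 c1, GG N' mu n := by
  have h1 : (1 : ℝ) ≤ qnul f q1 z0 := by exact_mod_cast O.qn1
  have h2 : (N' : ℝ) ≤ 1000 * h0 := by exact_mod_cast O.w1000
  have h3 := O.m1
  rw [div_le_iff₀ (by linarith)]
  unfold cS1
  linarith

theorem SObj.mass2 (O : SObj k R E C κ P f N' mu q1 z0 Hw h0 c1 c2) :
    (1 / 2000 : ℝ) * N' / qnul f q1 z0 ≤ ∑ n ∈ cS2 f q1 z0 h0 c2, GG N' mu n := by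
  have h1 : (1 : ℝ) ≤ qnul f q1 z0 := by exact_mod_cast O.qn1
  have h2 : (N' : ℝ) ≤ 1000 * h0 := by exact_mod_cast O.w1000
  have h3 := O.m2
  rw [div_le_iff₀ (by linarith)]
  unfold cS2
  linarith

theorem SObj.N0 (O : SObj k R E C κ P f N' mu q1 z0 Hw h0 c1 c2) : (0 : ℝ) < N' := by
  exact_mod_cast O.st.law.pos

theorem SObj.X0 (O : SObj k R E C κ P f N' mu q1 z0 Hw h0 c1 c2) :
    0 < (1 / 2000 : ℝ) * N' / qnul f q1 z0 := by
  have h1 : (1 : ℝ) ≤ qnul f q1 z0 := by exact_mod_cast O.qn1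
  have h2 := O.N0
  positivity

theorem SObj.cap (O : SObj k R E C κ P f N' mu q1 z0 Hw h0 c1 c2) (n : ℤ) :
    |GG N' mu n| ≤ Real.exp (50 * (P / Real.log P ^ C) + 1) := by
  rw [abs_of_nonneg (O.base.G0 n)]
  unfold GG
  split_ifs with h
  · have h1 := O.st.cap n.toNat
    rw [le_div_iff₀ O.N0] at h1
    linarith
  · exact (Real.exp_pos _).le

theorem SObj.cong (O : SObj k R E C κ P f N' mu q1 z0 Hw h0 c1 c2) :
    ∀ n ∈ cS1 f q1 z0 Hw h0 c1, ∀ m ∈ cS2 f q1 z0 h0 c2,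
      ((qnul f q1 z0 : ℕ) : ℤ) ∣ (n - m) - f.eval (z0 : ℤ) := by
  intro n hn m hm
  have h1 : n % ((qnul f q1 z0 : ℕ) : ℤ) = (c1 : ℤ) := (mem_filter.1 hn).2
  have h2 : m % ((qnul f q1 z0 : ℕ) : ℤ) = (c2 : ℤ) := (mem_filter.1 hm).2
  have h3 := O.cls
  have h4 : ((qnul f q1 z0 : ℕ) : ℤ) ∣ n - c1 := by
    rw [← h1]; exact Int.dvd_self_sub_emod
  have h5 : ((qnul f q1 z0 : ℕ) : ℤ) ∣ m - c2 := by
    rw [← h2]; exact Int.dvd_self_sub_emod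
  have h6 : n - m - f.eval (z0 : ℤ) = (n - c1) - (m - c2) + ((c1 : ℤ) - c2 - f.eval (z0 : ℤ)) := by
    ring
  rw [h6]
  exact dvd_add (dvd_sub h4 h5) h3

end

section

variable {ι : Type} [Fintype ι] [DecidableEq ι] {prm : ι → ℕ} [∀ i, NeZero (prm i)]

theorem red_dvd (n : ℤ) (i : ι) : ((prm i : ℕ) : ℤ) ∣ n - ((redZ prm n i).val : ℤ) := by
  unfold redZ
  rw [← ZMod.intCast_zmod_eq_zero_iff_dvd]
  push_cast
  rw [ZMod.natCast_zmod_val, sub_self]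

variable {k R E A' C : ℕ} {κ P : ℝ} {f : ℤ[X]} {N' : ℕ} {mu : ℕ → ℝ} {q1 z0 Hw h0 c1 c2 : ℕ}
  {c C1 κ0 C2 thQ th eps : ℝ} {kap : ℕ → ℕ → ℝ}
  {K : ∀ i, ZMod (prm i) → ZMod (prm i) → ℝ} {e e' : ∀ i, ZMod (prm i) → ℝ}
  {u u' : ∀ i, ZMod (prm i) → ℝ} {s0 : ∀ i, ZMod (prm i) → ZMod (prm i) → ℝ} {rho ee : ι → ℝ}

/-- **the lower bound at one state**, from the main part, the top part and the numbers -/
theorem lowat_S (hO : ObjG k R c kap C1 κ0 C2 P (Real.log P ^ E) (P ^ 2 / Real.log P ^ A') f q1 z0)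
    (hc0 : 0 < c) (hkap0 : ∀ p j, 0 ≤ kap p j)
    (hq1 : (q1 : ℝ) ≤ Real.exp (κ0 * P)) (hS : SObj k R E C κ P f N' mu q1 z0 Hw h0 c1 c2)
    (hprm : PrmS E A' P prm)
    (hKP : KPack prm (fer f q1 z0) (wS prm N' mu) (4 * k) eps K e e' u u' s0 rho ee)
    (hP0 : 0 < P) (hl1 : 1 ≤ Real.log P) (heps0 : 0 ≤ eps) (heps1 : eps ≤ 1)
    {m0 M0 : ℕ} {X : ℝ} (hX : 0 ≤ X) (hM0 : M0 = ⌊Real.exp X⌋₊)
    (hQ : ⌊Real.exp (2 * Real.log P * m0)⌋₊ * M0 * qnul f q1 z0 ≤ ⌊Real.exp (thQ * P)⌋₊)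
    (hQ1 : 1 ≤ ⌊Real.exp (thQ * P)⌋₊) (hQ4 : ⌊Real.exp (thQ * P)⌋₊ ^ 4 ≤ N')
    (hmain : |∑ B ∈ low ι m0, ∑ x, ∑ y, push (redZ prm) (cS1 f q1 z0 Hw h0 c1) (GG N' mu) x *
      push (redZ prm) (cS2 f q1 z0 h0 c2) (GG N' mu) y * ∏ i ∈ B, K i (x i) (y i) - 1| ≤ 3 / 4)
    (htop : ∑ B ∈ low ι m0, ∑ m2 ∈ (MM (Ts E P) prm M0).filter (fun m2 => 1 < m2),
      ‖FB (fer f q1 z0) (H245.PPf C1 (fer f q1 z0) P) (cS1 f q1 z0 Hw h0 c1)
        (cS2 f q1 z0 h0 c2) (GG N' mu) (GG N' mu)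
        (fun i n m => K i (redZ prm n i) (redZ prm m i)) B m2‖ ≤
      1 / 8 * ((∑ n ∈ cS1 f q1 z0 Hw h0 c1, GG N' mu n) * ∑ n ∈ cS2 f q1 z0 h0 c2, GG N' mu n))
    {S : ℝ} (hSum : ∑ i, 132 * (k : ℝ) / √(prm i) ≤ S)
    (herr : ∀ S' : ℝ, 0 ≤ S' → S' ≤ S → ∀ mm : ℝ,
      ((1 / 2000 : ℝ) * N' / qnul f q1 z0) ^ 2 ≤ mm →
      4 * (N' : ℝ) ^ 2 * Real.exp (50 * (P / Real.log P ^ C) + 1) ^ 2 *
        ((Real.log P ^ 5)⁻¹ ^ m0 * Real.exp (Real.log P ^ 5 * S') +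
          Real.exp (-(c * X)) * Real.exp S') ≤ 1 / 16 * mm)
    (hlow : ∀ dn mm : ℝ, Real.exp (-(κ0 / 4 * P)) ≤ dn →
      ((1 / 2000 : ℝ) * N' / qnul f q1 z0) ^ 2 ≤ mm →
      Real.exp (-(κ0 * P)) * (N' : ℝ) ^ 2 ≤ dn * ((qnul f q1 z0 : ℝ) * (1 / 16 * mm)))
    (hsq : ∀ S' : ℝ, S' ≤ S → Real.exp (50 * (P / Real.log P ^ C) + 1) ^ 2 *
      (2 * N' * Real.exp (2 * S')) ≤ Real.exp (κ0 * P) * N') :
    LOWat (H245.GWf C1) κ0 thQ P f N' (GG N' mu) := by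
  classical
  set T := Tl (Real.log P ^ E) with hTdef
  set PP := H245.PPf C1 (fer f q1 z0) P with hPPdef
  set S1 := cS1 f q1 z0 Hw h0 c1 with hS1
  set S2 := cS2 f q1 z0 h0 c2 with hS2
  have hmass1 := hS.mass1
  have hmass2 := hS.mass2
  have hX0 := hS.X0
  rw [← hS1] at hmass1
  rw [← hS2] at hmass2
  set mm : ℝ := (∑ n ∈ S1, GG N' mu n) * ∑ n ∈ S2, GG N' mu n with hmmdef
  have hmm0 : ((1 / 2000 : ℝ) * N' / qnul f q1 z0) ^ 2 ≤ mm := by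
    rw [sq, hmmdef]
    exact mul_le_mul hmass1 hmass2 hX0.le (hX0.le.trans hmass1)
  have hprime := hprm.prime
  have hp0 : ∀ i, (0 : ℝ) < prm i := fun i => by exact_mod_cast (hprime i).pos
  have hsp : ∀ i, 0 < √(prm i : ℝ) := fun i => Real.sqrt_pos.2 (hp0 i)
  have hnT : ∀ i, prm i ∉ T := by
    intro i hi
    have h1 := (mem_Tl.1 hi).2
    have h2 := hprm.lo i
    have h3 : (prm i : ℝ) ≤ Real.log P ^ E :=
      (Nat.le_floor_iff (by positivity)).1 h1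
    linarith
  have hmemW : ∀ i, prm i ∈ Wl (Real.log P ^ E) (P ^ 2 / Real.log P ^ A') := by
    intro i
    rw [mem_Wl]
    exact ⟨hprime i, (Nat.floor_lt (by positivity)).2 (hprm.lo i), Nat.le_floor (hprm.hi i)⟩
  have hpexp : ∀ i, (prm i : ℝ) ≤ Real.exp (2 * Real.log P) := by
    intro i
    have h1 := hprm.hi i
    have h2 : P ^ 2 / Real.log P ^ A' ≤ P ^ 2 := div_le_self (by positivity) (one_le_pow₀ hl1)
    have h3 : Real.exp (2 * Real.log P) = P ^ 2 := by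
      rw [show (2 : ℝ) * Real.log P = ((2 : ℕ) : ℝ) * Real.log P by norm_num, Real.exp_nat_mul,
        Real.exp_log hP0]
    rw [h3]
    linarith
  have hk0 : (0 : ℝ) ≤ k := Nat.cast_nonneg _
  have hY : ∀ B : Finset ι, B.card ≤ m0 → ∏ i ∈ B, prm i ≤ ⌊Real.exp (2 * Real.log P * m0)⌋₊ := by
    intro B hB
    apply Nat.le_floor
    push_cast
    calc ∏ i ∈ B, (prm i : ℝ) ≤ ∏ i ∈ B, Real.exp (2 * Real.log P) :=
          prod_le_prod (fun i _ => (hp0 i).le) fun i _ => hpexp i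
      _ = Real.exp (2 * Real.log P * B.card) := by
          rw [prod_const, ← Real.exp_nat_mul]
          congr 1
          ring
      _ ≤ Real.exp (2 * Real.log P * m0) := by
          apply Real.exp_le_exp.2
          have : (B.card : ℝ) ≤ m0 := by exact_mod_cast hB
          exact mul_le_mul_of_nonneg_left this (by linarith)
  have hM01 : 1 ≤ M0 := by
    rw [hM0]
    apply Nat.le_floor
    rw [Nat.cast_one]
    exact Real.one_le_exp hX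
  have hYN : ⌊Real.exp (2 * Real.log P * m0)⌋₊ ≤ N' := Y0_le hQ hM01 hO.qn1 hQ4
  -- the tilts
  have hb0 : ∀ i, 0 ≤ 16 * (4 * (k : ℝ) / √(prm i)) * √eps := fun i => by
    have := hsp i
    positivity
  have hb1 : ∀ i, 16 * (4 * (k : ℝ) / √(prm i)) * √eps ≤ 64 * k / √(prm i) := by
    intro i
    have h1 : √eps ≤ 1 := Real.sqrt_le_one.2 heps1
    have h2 : 0 ≤ 16 * (4 * (k : ℝ) / √(prm i)) := by
      have := hsp i
      positivity
    calc 16 * (4 * (k : ℝ) / √(prm i)) * √eps ≤ 16 * (4 * (k : ℝ) / √(prm i)) * 1 :=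
          mul_le_mul_of_nonneg_left h1 h2
      _ = 64 * k / √(prm i) := by ring
  have H : SeamH (fer f q1 z0) PP T prm (kwS k T PP kap) (fun i => 4 * (k : ℝ) / √(prm i))
      (fun i => 16 * (4 * (k : ℝ) / √(prm i)) * √eps)
      (fun i => 16 * (4 * (k : ℝ) / √(prm i)) * √eps)
      (fun i n => e i (redZ prm n i)) (fun i n => e' i (redZ prm n i)) S1 S2 (GG N' mu) (GG N' mu)
      (Real.exp (50 * (P / Real.log P ^ C) + 1)) N' ⌊Real.exp (thQ * P)⌋₊ m0 := by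
    refine ⟨hO.ns, hprm.inj, fun i => hO.mem _ (hmemW i), fun p j => kwS_nonneg k T PP hkap0 p j,
      hO.hG, fun i => hO.rate _ (hprime i) (hnT i), hb0, hb0, ?_, ?_, ?_, ?_, hS.sub1, hS.sub2,
      (Real.exp_pos _).le, fun n _ => hS.cap n, fun n _ => hS.cap n, hQ1, hQ4,
      fun B hB => (hY B hB).trans hYN⟩
    · intro i n
      simp [redZ]
    · intro i n
      simp [redZ]
    · intro i
      exact tilt_sq (H954.rs_zmod (prm i)) (fun n => red_dvd n i) (hprime i).pos (e i) _ (hKP.nme i)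
    · intro i
      exact tilt_sq (H954.rs_zmod (prm i)) (fun n => red_dvd n i) (hprime i).pos (e' i) _
        (hKP.nme' i)
  have hsum0 : ∀ F : ι → ℝ, (∀ i, F i ≤ 132 * (k : ℝ) / √(prm i)) → ∑ i, F i ≤ S :=
    fun F hF => (sum_le_sum fun i _ => hF i).trans hSum
  have hfull : ∀ i, 4 * (k : ℝ) / √(prm i) + 16 * (4 * (k : ℝ) / √(prm i)) * √eps +
      16 * (4 * (k : ℝ) / √(prm i)) * √eps ≤ 132 * (k : ℝ) / √(prm i) := by
    intro i
    have h1 := hb1 i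
    have h2 : 4 * (k : ℝ) / √(prm i) + 64 * k / √(prm i) + 64 * k / √(prm i) =
        132 * (k : ℝ) / √(prm i) := by ring
    linarith
  have hbfull : ∀ i, 16 * (4 * (k : ℝ) / √(prm i)) * √eps ≤ 132 * (k : ℝ) / √(prm i) := by
    intro i
    have h1 := hfull i
    have h2 := hb0 i
    have h3 : 0 ≤ 4 * (k : ℝ) / √(prm i) := by
      have := hsp i
      positivity
    linarith
  have hpow1 : ∀ m2 : ℕ, 1 ≤ m2 → (∀ p ∈ T, ¬ p ∣ m2) → kapProd (kwS k T PP kap) m2 ≤ 1 := by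
    intro m2 h1 h2
    refine (hO.pow m2 h1 h2).trans ?_
    exact Real.rpow_le_one_of_one_le_of_nonpos (by exact_mod_cast h1) (by linarith)
  refine lowat_of (H245.GWf C1) (T := T) (PP := PP) (prm := prm) (m0 := m0) hO.tiny hO.z0lt.le hq1
    hO.dis hO.gw H hS.cong hS.w8 hS.w16 hS.h0pos hS.wh (z := 0) le_rfl (by
      have := hS.wN
      push_cast
      omega) ?_ ?_
    (fun i n m => K i (redZ prm n i) (redZ prm m i)) ?_ M0 _ hM01 hY hQ (Real.log P ^ 5)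
    (Real.exp (-(c * X))) (one_le_pow₀ hl1) (Real.exp_pos _).le
    (fun m2 h1 _ h3 _ => hpow1 m2 h1 h3) ?_ mm (le_trans (sq_nonneg _) hmm0) ?_ htop ?_ ?_ ?_ ?_
  · intro n hn
    have h1 := mem_Icc.1 (mem_filter.1 hn).1
    push_cast at h1
    constructor <;> omega
  · intro n hn
    have h1 := mem_Icc.1 (mem_filter.1 hn).1
    push_cast at h1
    constructor <;> omega
  · intro i n _ m _
    exact kernel_rel (V := ZMod (prm i)) (v := fun x => x.val) (r := fun n => redZ prm n i)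
      (fun n => red_dvd n i) (hKP.rel i) n m
  · intro m2 h1 _ h3 _ h5
    refine (hO.pow m2 h1 h3).trans (delta_num c X hc0.le m2 ?_)
    rw [← hM0]
    exact h5
  · exact main_of (fer f q1 z0) PP hO.ns S1 S2 (GG N' mu) (redZ prm) K m0
      (hX0.trans_le hmass1) (hX0.trans_le hmass2) hmain
  · refine herr _ ?_ (hsum0 _ hfull) mm hmm0
    refine sum_nonneg fun i _ => ?_
    have h1 := hb0 i
    have h3 : 0 ≤ 4 * (k : ℝ) / √(prm i) := by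
      have := hsp i
      positivity
    linarith
  · exact hlow _ mm hO.dns hmm0
  · exact hsq _ (hsum0 _ hbfull)
  · exact hsq _ (hsum0 _ hbfull)

end

end Vale.Agent.P042.H419
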