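import Vale.Agent.P042.H419.Window
import Vale.Agent.P042.H419.Low
import Vale.Agent.P042.H188.NCx
import Vale.Agent.P042.H48.TopT
import Vale.Agent.P042.H48.TopE
import Vale.Agent.P042.H758.NumT
import Vale.Agent.P042.H944.TopT3
import Vale.Agent.P042.H944.TopKwC
import Vale.Agent.P042.H482.LeafM

set_option autoImplicit false
set_option linter.unusedSectionVars false

/-!
P042, S.7: the weighted energy of one window of the state (second source of H48/TopW).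
-/

namespace Vale.Agent.P042.H419

open Polynomial Finset Vale.Agent.P042.SS Vale.Agent.P042.H74 Vale.Agent.P042.H452
  Vale.Agent.P042.H945 Vale.Agent.P042.H359
open Vale.Agent.P042.H461 (W)
open Vale.Agent.P042.H944 (Ytop KwT)
open Vale.Agent.P042.H188
open Vale.Agent.P042.H48.Top (PrT kapS tauS)

section
variable {ι : Type} [Fintype ι] [DecidableEq ι] {prm : ι → ℕ}

theorem wS_sum [∀ i, NeZero (prm i)] {N' : ℕ} {mu : ℕ → ℝ} (h : H599.Law mu 1 N') (i : ι) :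
    ∑ a, wS prm N' mu i a = 1 := by
  unfold wS
  rw [sum_zmod (prm i) fun a => H599.cm mu 1 N' (prm i) a]
  exact H599.sum_cm h.sum (Nat.pos_of_ne_zero (NeZero.ne _))

theorem wS_ne [∀ i, NeZero (prm i)] {N' : ℕ} {mu : ℕ → ℝ} (h : H599.Law mu 1 N') {n : ℤ}
    (hn : n ∈ Icc (1 : ℤ) N') (h0 : GG N' mu n ≠ 0) : W (wS prm N' mu) (redZ prm n) ≠ 0 := by
  unfold W
  rw [prod_ne_zero_iff]
  intro i _
  rw [mem_Icc] at hn
  obtain ⟨j, hj⟩ : ∃ j : ℕ, n = ((1 + j : ℕ) : ℤ) := ⟨(n - 1).toNat, by omega⟩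
  have hjN : j < N' := by omega
  have hmu : mu (1 + j) ≠ 0 := by
    intro hc
    apply h0
    unfold GG
    rw [if_pos hn.1, hj, Int.toNat_natCast, hc, mul_zero]
  have hmu0 : 0 < mu (1 + j) := lt_of_le_of_ne (h.nonneg j hjN) (Ne.symm hmu)
  apply ne_of_gt
  unfold wS H599.cm
  refine lt_of_lt_of_le hmu0 ?_
  have h1 : (1 + j) % prm i = (redZ prm n i).val := by
    unfold redZ
    rw [hj]
    push_cast
    rw [show ((1 : ZMod (prm i)) + (j : ZMod (prm i))) = (((1 + j : ℕ)) : ZMod (prm i)) by push_cast; ring,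
      ZMod.val_natCast]
  have h2 : (if (1 + j) % prm i = (redZ prm n i).val then mu (1 + j) else 0) = mu (1 + j) :=
    if_pos h1
  rw [← h2]
  refine single_le_sum (f := fun i_1 => if (1 + i_1) % prm i = (redZ prm n i).val then
    mu (1 + i_1) else 0) (fun k hk => ?_) (mem_range.2 hjN)
  beta_reduce
  split_ifs
  · exact h.nonneg k (mem_range.1 hk)
  · exact le_rfl

end

/-- numbers of one window -/
structure NW (k : ℕ) (th C2 l : ℝ) : Prop where
  l14 : 14 ≤ l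
  a1 : 21504 * k ≤ l
  a2 : (24 * (1 + Real.exp 15)) ^ 2 * (384 * k) ≤ l
  a3 : 416 / (3 * th) * (4 * ((24 * (1 + Real.exp 15)) ^ 2 * (384 * k))) ≤ l
  a4 : 416 / (3 * th) * l ^ 1 ≤ 1 * Real.exp l
  a5 : C2 * l ^ 22 ≤ 1 / (32 * k) * Real.exp l
  a6 : 32 * k ≤ l
  a7 : 600 * l ^ 2 ≤ 1 * Real.exp l
  a8 : 56 ≤ Real.exp l

theorem exists_NW (k : ℕ) (hk : 1 ≤ k) (th C2 : ℝ) :
    ∃ l0 : ℝ, ∀ l : ℝ, l0 ≤ l → NW k th C2 l := by
  have hk1 : (0 : ℝ) < k := by exact_mod_cast hk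
  rw [← Filter.eventually_atTop]
  filter_upwards [Filter.eventually_ge_atTop (56 : ℝ), Filter.eventually_ge_atTop (21504 * (k : ℝ)),
    Filter.eventually_ge_atTop ((24 * (1 + Real.exp 15)) ^ 2 * (384 * (k : ℝ))),
    Filter.eventually_ge_atTop (416 / (3 * th) * (4 * ((24 * (1 + Real.exp 15)) ^ 2 * (384 * (k : ℝ))))),
    H74.NumS.ev_le (416 / (3 * th)) 1 1 one_pos,
    H74.NumS.ev_le C2 (1 / (32 * (k : ℝ))) 22 (by positivity),
    H74.NumS.ev_le 600 1 2 one_pos] with l h1 h2 h3 h4 h5 h6 h7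
  refine ⟨by linarith, h2, h3, h4, h5, h6, ?_, h7, ?_⟩
  · linarith
  · have := Real.add_one_le_exp l
    linarith


section
variable {ι : Type} [Fintype ι] [DecidableEq ι] {prm : ι → ℕ}

/-- the rates of one window -/
theorem win_rates {k : ℕ} {th C2 l : ℝ} (N : NW k th C2 l) (hth : 0 < th)
    (hprm : PrmS 22 22 (Real.exp l) prm) {rho : ι → ℝ} (hrho0 : ∀ i, 0 ≤ rho i)
    (hrho1 : ∀ i, rho i ≤ 192 * k / √(prm i)) {m : ℕ} (hml : (m : ℝ) ≤ 2 * l) {ccp : ℝ}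
    (hccp0 : 0 ≤ ccp) (hccp1 : ccp ≤ Real.exp 15) {D m0 d : ℕ}
    (hND : NumD k th (Real.exp l) D m0) (hdr : (D : ℝ) ≤ 13 * d + 12) :
    (∀ i, (8 * (m : ℝ) + 32) * (2 * rho i) ≤ 21504 * k * l ^ 1 / √(prm i)) ∧
    (∀ i, (8 * (m : ℝ) + 32) * (2 * rho i) ≤ 1) ∧
    (∀ i, (8 * (m : ℝ) * (1 + ccp)) ^ 2 * (2 * rho i) ≤ 1) ∧
    (m0 : ℝ) + 2 * ∑ i, (8 * (m : ℝ) * (1 + ccp)) ^ 2 * (2 * rho i) ≤ d := by
  have hl14 := N.l14
  have hl0 : 0 < l := by linarith
  have hl1 : 1 ≤ l := by linarith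
  have hprime := hprm.prime
  have hp0 : ∀ i, (0 : ℝ) < prm i := fun i => by exact_mod_cast (hprime i).pos
  have hlo22 : ∀ i, l ^ 22 ≤ (prm i : ℝ) := fun i => by
    have := hprm.lo i
    rw [Real.log_exp] at this
    exact this.le
  have hhi22 : ∀ i, (prm i : ℝ) ≤ Real.exp (2 * l) / l ^ 22 := fun i => by
    have h1 := hprm.hi i
    rw [Real.log_exp] at h1
    have h2 : Real.exp l ^ 2 = Real.exp (2 * l) := by
      rw [← Real.exp_nat_mul]
      norm_num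
    rwa [h2] at h1
  have hsq : ∀ i, l ^ 11 ≤ √(prm i : ℝ) := fun i => by
    apply Real.le_sqrt_of_sq_le
    rw [← pow_mul]
    exact hlo22 i
  have hsp : ∀ i, 0 < √(prm i : ℝ) := fun i => Real.sqrt_pos.2 (hp0 i)
  have hl11 : l * l ≤ l ^ 11 := by
    have h1 : l ^ 2 ≤ l ^ 11 := pow_le_pow_right₀ hl1 (by norm_num)
    calc l * l = l ^ 2 := by ring
      _ ≤ _ := h1
  have h384 : ∀ i, 2 * rho i ≤ 384 * k / √(prm i) := fun i => by
    have h2 := hrho1 i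
    have : 2 * (192 * (k : ℝ) / √(prm i)) = 384 * k / √(prm i) := by ring
    linarith
  have hs1 : ∀ i, (8 * (m : ℝ) + 32) * (2 * rho i) ≤ 21504 * k * l ^ 1 / √(prm i) := by
    intro i
    have h1 : 8 * (m : ℝ) + 32 ≤ 56 * l := by linarith
    calc (8 * (m : ℝ) + 32) * (2 * rho i) ≤ (56 * l) * (384 * k / √(prm i)) :=
          mul_le_mul h1 (h384 i) (by have := hrho0 i; positivity) (by positivity)
      _ = 21504 * k * l ^ 1 / √(prm i) := by ring
  obtain ⟨K3, hK3⟩ : ∃ K3 : ℝ, K3 = (24 * (1 + Real.exp 15)) ^ 2 * (384 * k) := ⟨_, rfl⟩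
  have hK30 : 0 ≤ K3 := by rw [hK3]; positivity
  have hq2 : (8 * (m : ℝ) * (1 + ccp)) ^ 2 ≤ (24 * (1 + Real.exp 15)) ^ 2 * l ^ 2 := by
    rw [← mul_pow]
    apply pow_le_pow_left₀ (by positivity)
    calc 8 * (m : ℝ) * (1 + ccp) ≤ (8 * (3 * l)) * (1 + Real.exp 15) := by
          apply mul_le_mul (by linarith) (by linarith) (by positivity) (by positivity)
      _ = 24 * (1 + Real.exp 15) * l := by ring
  have hterm : ∀ i, (8 * (m : ℝ) * (1 + ccp)) ^ 2 * (2 * rho i) ≤ K3 * l ^ 2 / √(prm i) := by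
    intro i
    calc (8 * (m : ℝ) * (1 + ccp)) ^ 2 * (2 * rho i) ≤
        ((24 * (1 + Real.exp 15)) ^ 2 * l ^ 2) * (384 * k / √(prm i)) :=
          mul_le_mul hq2 (h384 i) (by have := hrho0 i; positivity) (by positivity)
      _ = K3 * l ^ 2 / √(prm i) := by rw [hK3]; ring
  refine ⟨hs1, fun i => ?_, fun i => ?_, ?_⟩
  · refine (hs1 i).trans ?_
    rw [div_le_one (hsp i), pow_one]
    refine le_trans ?_ (hsq i)
    refine le_trans ?_ hl11
    exact mul_le_mul_of_nonneg_right N.a1 hl0.le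
  · refine (hterm i).trans ?_
    rw [div_le_one (hsp i)]
    refine le_trans ?_ (hsq i)
    have h1 : K3 ≤ l := hK3 ▸ N.a2
    calc K3 * l ^ 2 ≤ l * l ^ 2 := mul_le_mul_of_nonneg_right h1 (by positivity)
      _ = l ^ 3 := by ring
      _ ≤ l ^ 11 := pow_le_pow_right₀ hl1 (by norm_num)
  · have hsumt : ∑ i, (8 * (m : ℝ) * (1 + ccp)) ^ 2 * (2 * rho i) ≤
        2 * (K3 * l ^ 2) * Real.exp l / l ^ 10 :=
      (sum_le_sum fun i _ => hterm i).trans
        (H74.NumS.sum_rateE prm hprm.inj (fun i => (hprime i).pos) l hl1 22 (by norm_num) hhi22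
          (K3 * l ^ 2) (by positivity))
    have hm16 : (16 : ℝ) * m0 ≤ D := by exact_mod_cast hND.m16
    have hDlo : th * Real.exp l / l ≤ D := by
      have := hND.lo
      rwa [Real.log_exp] at this
    have h1 : 2 * ∑ i, (8 * (m : ℝ) * (1 + ccp)) ^ 2 * (2 * rho i) ≤
        4 * K3 * (Real.exp l / l ^ 2) := by
      have h2 : 2 * (K3 * l ^ 2) * Real.exp l / l ^ 10 ≤ 2 * K3 * (Real.exp l / l ^ 2) := by
        rw [div_le_iff₀ (by positivity)]
        have h3 : 2 * K3 * (Real.exp l / l ^ 2) * l ^ 10 = 2 * K3 * Real.exp l * l ^ 8 := by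
          field_simp
        rw [h3]
        have h4 : l ^ 2 ≤ l ^ 8 := pow_le_pow_right₀ hl1 (by norm_num)
        have h5 := mul_le_mul_of_nonneg_left h4 (show 0 ≤ 2 * K3 * Real.exp l by positivity)
        linarith
      linarith
    have h2 : 4 * K3 * (Real.exp l / l ^ 2) ≤ 3 / 416 * (th * Real.exp l / l) := by
      have h3 : 416 / (3 * th) * (4 * K3) ≤ l := hK3 ▸ N.a3
      have h4 : 4 * K3 ≤ 3 * th / 416 * l := by
        have h5 := mul_le_mul_of_nonneg_left h3 (show 0 ≤ 3 * th / 416 by positivity)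
        have h6 : 3 * th / 416 * (416 / (3 * th) * (4 * K3)) = 4 * K3 := by field_simp
        linarith
      calc 4 * K3 * (Real.exp l / l ^ 2) ≤ (3 * th / 416 * l) * (Real.exp l / l ^ 2) :=
            mul_le_mul_of_nonneg_right h4 (by positivity)
        _ = 3 / 416 * (th * Real.exp l / l) := by field_simp
    have h3 : 1 ≤ 3 / 416 * (th * Real.exp l / l) := by
      have h4 := N.a4
      rw [pow_one, one_mul] at h4
      have h5 := mul_le_mul_of_nonneg_left h4 (show 0 ≤ 3 * th / 416 by positivity)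
      have h6 : 3 * th / 416 * (416 / (3 * th) * l) = l := by field_simp
      rw [h6] at h5
      have h7 : 3 / 416 * (th * Real.exp l / l) = (3 * th / 416 * Real.exp l) / l := by ring
      rw [h7, le_div_iff₀ hl0]
      linarith
    linarith

/-- the size of the base modulus -/
theorem win_log {k : ℕ} (hk : 1 ≤ k) {th C2 l : ℝ} (N : NW k th C2 l) {qn d M0 J : ℕ}
    {lam0 : ℝ} (hqn : 1 ≤ qn) (hd : 1 ≤ d) (hqE : (qn : ℝ) ≤ Real.exp (C2 * l ^ 22))
    (hM0 : (M0 : ℝ) ≤ Real.exp (Real.exp l / l ^ 2))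
    (h2J : 2 ^ (J - 1) * lam0 = 1 / (1000 * k) / 2 * Real.exp l)
    (hdY : (d : ℝ) ≤ M0 * Real.exp (2 ^ (J - 1) * lam0)) :
    Real.log ((qn * d : ℕ) : ℝ) ≤ Real.exp l / (8 * k) := by
  have hkr : (1 : ℝ) ≤ k := by exact_mod_cast hk
  have hl14 := N.l14
  have hl0 : 0 < l := by linarith
  have hqn0 : (0 : ℝ) < qn := by exact_mod_cast hqn
  have hd0 : (0 : ℝ) < d := by exact_mod_cast hd
  push_cast
  rw [Real.log_mul hqn0.ne' hd0.ne']
  have b1 : Real.log (qn : ℝ) ≤ C2 * l ^ 22 := by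
    rwa [Real.log_le_iff_le_exp hqn0]
  have b2 : Real.log (d : ℝ) ≤ Real.exp l / l ^ 2 + 1 / (1000 * k) / 2 * Real.exp l := by
    rw [Real.log_le_iff_le_exp hd0, Real.exp_add]
    refine hdY.trans ?_
    rw [h2J]
    exact mul_le_mul_of_nonneg_right hM0 (Real.exp_pos _).le
  have b3 := N.a5
  have b4 : Real.exp l / l ^ 2 ≤ 1 / (32 * k) * Real.exp l := by
    rw [div_le_iff₀ (by positivity)]
    have b5 : 32 * (k : ℝ) ≤ l ^ 2 := by
      have := N.a6
      nlinarith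
    have b6 : 1 / (32 * (k : ℝ)) * Real.exp l * l ^ 2 =
        Real.exp l * (l ^ 2 / (32 * k)) := by field_simp
    rw [b6]
    have b7 : 1 ≤ l ^ 2 / (32 * (k : ℝ)) := by
      rw [le_div_iff₀ (by positivity)]
      linarith
    nlinarith [Real.exp_pos l]
  have b5 : 1 / (1000 * (k : ℝ)) / 2 * Real.exp l ≤ 1 / (32 * k) * Real.exp l := by
    apply mul_le_mul_of_nonneg_right _ (Real.exp_pos _).le
    rw [div_div]
    apply div_le_div_of_nonneg_left (by norm_num) (by positivity)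
    linarith
  have b6 : Real.exp l / (8 * k) = 4 * (1 / (32 * k) * Real.exp l) := by
    field_simp
    norm_num
  have b7 : 0 ≤ 1 / (32 * (k : ℝ)) * Real.exp l := by positivity
  rw [b6]
  linarith

/-- every top cell is thick -/
theorem win_thick {k R C : ℕ} {κ th C2 l : ℝ} (hk : 1 ≤ k) (hκ : 0 < κ) (hC : 40 ≤ C)
    (B : BN k κ C2 22 C l) (N : NW k th C2 l) [∀ i, NeZero (prm i)] {f : ℤ[X]} {N' : ℕ}
    {mu : ℕ → ℝ} {q1 z0 Hw h0 c1 c2 : ℕ} (hprm : PrmS 22 22 (Real.exp l) prm)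
    (hS : SObj k R 22 C κ (Real.exp l) f N' mu q1 z0 Hw h0 c1 c2) {D m0 : ℕ}
    (hND : NumD k th (Real.exp l) D m0) (hqnE : (qnul f q1 z0 : ℝ) ≤ Real.exp (C2 * l ^ 22))
    {u v c' d : ℕ} (hu : 1 ≤ u) (hv : v ≤ N') (huv : v + 1 - u = h0)
    (t1 : 1 ≤ d) (t4 : ∀ p ∈ d.primeFactors, ∀ i, prm i ≠ p)
    (hc' : c' < qnul f q1 z0 * d)
    (hlog : Real.log ((qnul f q1 z0 * d : ℕ) : ℝ) ≤ Real.exp l / (8 * k))
    (hne : ∑ n ∈ cellZ (qnul f q1 z0 * d) c' u v, GG N' mu n ≠ 0) :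
    H779.Ab.Sb.ThickS l (l ^ 1) 14 lamS 0 (wS prm N' mu) (uw prm)
      (H635.lawc (redZ prm) (cellZ (qnul f q1 z0 * d) c' u v) (GG N' mu)) D
      (∑ n ∈ cellZ (qnul f q1 z0 * d) c' u v, GG N' mu n)
      (kapS N' (qnul f q1 z0) d (tauS k κ C (Real.exp l))) := by
  have hl14 := N.l14
  have hl0 : 0 < l := by linarith
  have hl1 : 1 ≤ l := by linarith
  have hprime := hprm.prime
  have hW : ∀ i, prm i ∈ WS (Real.exp l) := H482.prm_WS hprm hl1 (by norm_num)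
  have hNh : N' ≤ 1000 * h0 := hS.w1000
  have hDth : (D : ℝ) ≤ thB k * (Real.exp l / l) := by
    have hk0 : (0 : ℝ) < k := by exact_mod_cast hk
    have g1 := hND.hi
    have g2 := hND.hi'
    rw [Real.log_exp] at g1 g2
    unfold H359.thB
    rw [min_mul_of_nonneg _ _ (by positivity)]
    refine le_min ?_ ?_
    · rw [div_mul_div_comm, one_mul, le_div_iff₀ (by positivity)]
      linarith
    · rw [div_mul_div_comm, one_mul, le_div_iff₀ (by positivity)]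
      linarith
  have h3l : 3 * l ≤ Real.exp l / (200 * l) := by
    rw [le_div_iff₀ (by positivity)]
    have := N.a7
    linarith [this, sq l]
  rw [H482.wS_same hprime hS.st.law]
  refine H48.Top.thick_sig B hk hκ (by omega) hS.st (GG_eq N' mu) hprm.inj hW h3l hS.qn1 t1 ?_
    hc' hqnE hlog hu hv (by rw [huv]; exact hNh) hDth hne
  intro i
  refine Nat.Coprime.mul_left (H482.prm_cop hprm hl0.le hS.tiny i) ?_
  apply Nat.Coprime.symm
  rw [(hprime i).coprime_iff_not_dvd]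
  intro hdv
  exact t4 (prm i) (Nat.mem_primeFactors.2 ⟨hprime i, hdv, by omega⟩) i rfl

end

/-- **one window of the state** -/
theorem win_S (k R C : ℕ) (c κ th : ℝ) (hk : 2 ≤ k) (hR : 1 ≤ R) (hC : 40 ≤ C) (hc : 0 < c)
    (hκ : 0 < κ) (hκ8 : κ ≤ 1 / 8) (hth : 0 < th) :
    ∃ KW P0 : ℝ, 0 ≤ KW ∧ ∀ P : ℝ, P0 ≤ P →
    ∀ (ι : Type) [Fintype ι] [DecidableEq ι] (prm : ι → ℕ) [∀ i, NeZero (prm i)] (f : ℤ[X])
      (N' : ℕ) (mu : ℕ → ℝ) (q1 z0 Hw h0 c1 c2 : ℕ), PrmS 22 22 P prm →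
      SObj k R 22 C κ P f N' mu q1 z0 Hw h0 c1 c2 →
    ∀ (PP : Finset ℕ) (kw : ℕ → ℕ → ℝ), KwT k c (Ts 22 P) PP (fer f q1 z0) kw →
    ∀ rho : ι → ℝ, (∀ i, 0 ≤ rho i) → (∀ i, rho i ≤ 192 * k / √(prm i)) →
    ∀ D m0 M0 : ℕ, NumD k th P D m0 → (M0 : ℝ) ≤ Real.exp (P / Real.log P ^ 2) →
    ∀ cc u v : ℕ, cc < qnul f q1 z0 → 1 ≤ u → v ≤ N' → v + 1 - u = h0 →
    Ytop (wS prm N' mu) (redZ prm) rho (low ι m0)
      ((MM (Ts 22 P) prm M0).filter (fun m2 => 1 < m2)) (fun m => kapProd kw m)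
      (cellZ (qnul f q1 z0) cc u v) (GG N' mu) ≤
      KW / Real.log P * ((N' : ℝ) / qnul f q1 z0) ^ 2 := by
  have hk1 : 1 ≤ k := by omega
  have hkr : (2 : ℝ) ≤ k := by exact_mod_cast hk
  obtain ⟨C2, hC2⟩ : ∃ C2 : ℝ, C2 = 2 * Real.log (sfac k * R : ℝ) + Real.log 4 := ⟨_, rfl⟩
  have hC20 : 0 ≤ C2 := hC2 ▸ H482.C2_nonneg hR
  obtain ⟨l1, hBN⟩ := exists_BN k hk1 κ C2 hκ hC20 22 C (by omega) (by omega)
  obtain ⟨l2, hE13⟩ := H48.Top.hE_S13_side 1 (21504 * k) 14 lamS th 0 (by positivity) (by norm_num)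
    H482.lamS_pos hth le_rfl
  obtain ⟨P3, hnum⟩ := H758.num_T k R 22 22 C c κ (1 / (1000 * k)) hc hκ (by positivity) (by omega)
  obtain ⟨l4, hNW⟩ := exists_NW k hk1 th C2
  refine ⟨768 * (2 * (18 * Real.exp 1 ^ 2) + 1), max (max (Real.exp l1) (Real.exp l2))
    (max P3 (Real.exp l4)), by positivity, ?_⟩
  intro P hP ι _ _ prm _ f N' mu q1 z0 Hw h0 c1 c2 hprm hS PP kw hKw rho hrho0 hrho1 D m0 M0 hND
    hM0 cc u v hcc hu hv huv
  simp only [max_le_iff] at hP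
  obtain ⟨⟨g1, g2⟩, g3, g4⟩ := hP
  have hP0 : 0 < P := (Real.exp_pos _).trans_le g1
  obtain ⟨l, rfl⟩ : ∃ l, P = Real.exp l := ⟨Real.log P, (Real.exp_log hP0).symm⟩
  have B := hBN l (Real.exp_le_exp.1 g1)
  have hE13' := @hE13 l (Real.exp_le_exp.1 g2)
  have N := hNW l (Real.exp_le_exp.1 g4)
  obtain ⟨J, lam0, σ, hJ, hlam, hσ, h5J, h2J, hl0', hl1', hlogG, hall⟩ := hnum _ g3
  have hl14 := N.l14
  have hl0 : 0 < l := by linarith
  have hl1 : 1 ≤ l := by linarith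
  have hlaw := hS.st.law
  have hN0 : (0 : ℝ) < N' := hS.N0
  have hqn1 : 1 ≤ qnul f q1 z0 := hS.qn1
  have hqn0 : (0 : ℝ) < qnul f q1 z0 := by exact_mod_cast hqn1
  have hh0 : 1 ≤ h0 := hS.h0pos
  have hNh : N' ≤ 1000 * h0 := hS.w1000
  -- moments
  obtain ⟨m, hm⟩ : ∃ m, m = ⌈l⌉₊ + 1 := ⟨_, rfl⟩
  have hlm : l ≤ m := by
    have := Nat.le_ceil l
    rw [hm]
    push_cast
    linarith
  have hml : (m : ℝ) ≤ 2 * l := by
    have := Nat.ceil_lt_add_one hl0.le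
    rw [hm]
    push_cast
    linarith
  have hm2 : 2 ≤ m := by
    have : (2 : ℝ) ≤ m := by linarith
    exact_mod_cast this
  have hm0 : (0 : ℝ) < m := by linarith
  obtain ⟨hτ0, hPr, hgS, hQ, hh1, hh2⟩ := hall ι prm PP (fer f q1 z0) kw M0 m hprm hKw hM0
    (by rw [Real.log_exp]; exact hlm)
  have hprime := hprm.prime
  have hlohi : ∀ i, l ^ (20 + 2 * 1) ≤ (prm i : ℝ) ∧
      (prm i : ℝ) ≤ Real.exp (2 * l) / l ^ (20 + 2 * 1) := fun i => by
    have h1 := hprm.lo i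
    have h3 := hprm.hi i
    rw [Real.log_exp] at h1 h3
    have h2 : Real.exp l ^ 2 = Real.exp (2 * l) := by
      rw [← Real.exp_nat_mul]
      norm_num
    rw [h2] at h3
    exact ⟨h1.le, h3⟩
  have hs0 : ∀ i, 0 ≤ (8 * (m : ℝ) + 32) * (2 * rho i) := fun i => by
    have := hrho0 i
    positivity
  -- the constant of the pins
  obtain ⟨ccp, hccp⟩ : ∃ x : ℝ, x = Real.exp (1 / l ^ (16 + 2 * 1) + 14) := ⟨_, rfl⟩
  have hccp0 : 0 ≤ ccp := hccp ▸ (Real.exp_pos _).le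
  have hccp1 : ccp ≤ Real.exp 15 := by
    rw [hccp]
    apply Real.exp_le_exp.2
    have : 1 / l ^ (16 + 2 * 1) ≤ 1 := by
      rw [div_le_one (by positivity)]
      exact one_le_pow₀ hl1
    linarith
  -- the number of pins
  obtain ⟨d, hd⟩ : ∃ d, d = D / 13 := ⟨_, rfl⟩
  have hd13 : 13 * d ≤ D := by omega
  have hdD : d ≤ D := by omega
  have hdr : (D : ℝ) ≤ 13 * d + 12 := by
    have : D ≤ 13 * d + 12 := by omega
    exact_mod_cast this
  have hDlo : th * Real.exp l / l ≤ D := by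
    have := hND.lo
    rwa [Real.log_exp] at this
  obtain ⟨hs1, hr1, hterm1, hkkd⟩ := win_rates N hth hprm hrho0 hrho1 hml hccp0 hccp1 hND hdr
  -- the window
  have hsub : cellZ (qnul f q1 z0) cc u v ⊆ Ioc ((u : ℤ) - 1) ((u : ℤ) - 1 + (h0 : ℕ)) := by
    intro n hn
    have h1 := mem_Icc.1 (mem_filter.1 hn).1
    rw [mem_Ioc]
    omega
  have hsubN : cellZ (qnul f q1 z0) cc u v ⊆ Icc (1 : ℤ) N' := cellZ_sub hu hv
  have hX0 : 0 < (N' : ℝ) / qnul f q1 z0 := by positivity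
  have hh0N : h0 ≤ N' := by omega
  have hqnE : (qnul f q1 z0 : ℝ) ≤ Real.exp (C2 * l ^ 22) := by
    have h1 := hS.qn_le
    rw [Real.log_exp] at h1
    rw [hC2]
    exact H482.qn_exp hR hl1 h1
  have h2Jlam : 2 ^ J * lam0 = 1 / (1000 * k) * Real.exp l := by
    have h1 : 5 * (2 ^ J * lam0) = 5 * (1 / (1000 * k) * Real.exp l) := by linarith
    linarith
  have hth1 : 1 / (1000 * (k : ℝ)) ≤ 1 / 1000 := by
    apply div_le_div_of_nonneg_left (by norm_num) (by norm_num)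
    linarith
  have hY0 : (0 : ℝ) ≤ M0 * Real.exp (2 ^ (J - 1) * lam0) := by positivity
  have key := window_le (w := wS prm N' mu) (red := redZ prm) prm (fun i => (hprime i).pos)
    (fun i => le_of_eq (ZMod.card (prm i))) m hm2 rho
    (fun i => (8 * (m : ℝ) + 32) * (2 * rho i)) ccp hrho0 hr1 hccp0 (fun i => le_rfl) hterm1
    (fun i a => H188.wS_nonneg hlaw i a) (fun i => wS_sum hlaw i) m0 d hkkd
    (S := cellZ (qnul f q1 z0) cc u v) (f := GG N' mu)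
    (fun n hn h => wS_ne hlaw (hsubN hn) h) (PrT (Ts 22 (Real.exp l)) prm M0)
    (X0 := (N' : ℝ) / qnul f q1 z0) (τ := tauS k κ C (Real.exp l) + 2 / m)
    (τ0 := tauS k κ C (Real.exp l)) (C0 := 18) (c0 := Real.exp 1) hX0 (by norm_num)
    (le_of_eq (by rw [add_sub_cancel_left]; field_simp)) hτ0 (H758.gS PP (H758.J0c c)) h0 M0 J
    ((u : ℤ) - 1) kw
    (Real.exp (50 * (Real.exp l / Real.log (Real.exp l) ^ C) + 1)) σ lam0
    (1 / Real.log (Real.exp l)) (1 / Real.log (Real.exp l))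
    ((MM (Ts 22 (Real.exp l)) prm M0).filter (fun m2 => 1 < m2)) ?_ (low ι m0)
    (fun B hB => mem_low.1 hB) ?_ hsub hPr hgS hKw.nn (fun n _ => hS.base.G0 n)
    (fun n _ => (le_abs_self _).trans (hS.cap n)) (Real.exp_pos _) hh0 hJ
    (hlogG _ _ _ hqn1 hh0 hh0N hS.qn_le) hlam hσ hl0' hl1' hl0' hl1' ?_ hQ hh1 hh2
  · refine key.trans (le_of_eq ?_)
    rw [Real.log_exp]
    ring
  · -- the absolute second moments
    intro sg hsg T a hT
    obtain ⟨t1, t2, t3, t4, c', hc', t5⟩ := H944.tcell_S hS.tiny hY0 (u := u) (v := v) hcc sg hsg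
    have hlog := win_log hk1 N hqn1 t1 hqnE (by rw [Real.log_exp] at hM0; exact hM0) h2J t2
    have hfin := hE13' (ι := ι) (prm := prm) (w := wS prm N' mu) (w2 := uw prm) (D := D)
      (κ := kapS N' (qnul f q1 z0) sg.1 (tauS k κ C (Real.exp l)))
      (s := fun i => (8 * (m : ℝ) + 32) * (2 * rho i)) (red := redZ prm)
      (S := cellZ (qnul f q1 z0 * sg.1) c' u v) (g := GG N' mu) hprm.inj
      hlohi hDlo (win_thick hk1 hκ hC B N hprm hS hND hqnE hu hv huv t1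
        (fun p hp => (t4 p hp).2) hc' hlog) (fun n _ => hS.base.G0 n) hs0 hs1 d hd13 T a hT
    rw [t5]
    refine hfin.trans (le_of_eq ?_)
    rw [← hccp, Real.exp_zero, mul_one]
    unfold kapS
    congr 3
    ring
  · intro T x hT hx
    exact nc_frame hprm hlaw (by omega) (fun _ => hccp0) T x hx
  · intro T hT
    exact cap_frame hprm (by rw [Real.log_exp]; linarith) N.a8 hND.hi' (hT.trans hdD) hM0
      h2Jlam hth1 hκ8 hS.base.lo hNh

end Vale.Agent.P042.H419
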