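import Vale.Agent.P042.H419.FinT
import Vale.Agent.P042.H419.WinS
import Vale.Agent.P042.H944.TopL

set_option autoImplicit false

/-!
P042, target S: the theorem.
-/

namespace Vale.Agent.P042.H419

open Vale.Agent.P042.H739 Vale.Agent.P042.H945

theorem winS : H944.WinS := fun k R C c κ th hk hR hC hc hκ hκ8 hth =>
  win_S k R C c κ th hk hR hC hc hκ hκ8 hth

/-- **target S** -/
theorem finalS : FinalS := finalS_of_leafT (H944.leafT_of winS)

end Vale.Agent.P042.H419
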