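import Vale.Agent.P042.H419.LowerS
import Vale.Agent.P042.H482.LeafK
import Vale.Agent.P042.H482.LeafM
import Vale.Agent.P042.H945.StSFin
import Vale.Agent.P042.H245.ANU

set_option autoImplicit false

/-!
P042, target S: everything from the top part.
-/

namespace Vale.Agent.P042.H419

open Vale.Agent.P042.H739 Vale.Agent.P042.H945

/-- target S from the last leaf -/
theorem finalS_of_leafT (hT : LeafT 2) : FinalS :=
  finalS_of states_StS (H245.anu 2 (by norm_num))
    (lowers_of 2 le_rfl H482.leafK H482.leafM hT)

end Vale.Agent.P042.H419
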