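import Vale.Agent.P042.H419.Low

set_option autoImplicit false

/-!
P042, target S, row S.5b: `LOWERS (GWf C1) StS` from the three leaves.
-/

namespace Vale.Agent.P042.H419

open Polynomial Finset Vale.Agent.P042.SS Vale.Agent.P042.H74 Vale.Agent.P042.H739
  Vale.Agent.P042.H452 Vale.Agent.P042.H945 Vale.Agent.P042.H359 Vale.Agent.P042.H599
  Vale.Agent.P042.H758 Vale.Agent.P042.H74.NumS

/-- choice of the number of pins and of the truncation -/
theorem exists_D (k : ℕ) (hk : 2 ≤ k) (th : ℝ) (hth : 0 < th) (hth1 : th ≤ 1 / (32 * k))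
    (hth2 : th ≤ 1 / 20000) : ∃ l0 : ℝ, ∀ P : ℝ, 0 < P → l0 ≤ Real.log P →
    ∃ D m0 : ℕ, NumD k th P D m0 ∧ 2 * Real.log P * m0 ≤ th / 2 * P ∧
      th / 16 * P / Real.log P ≤ m0 + 1 := by
  have hk0 : (0 : ℝ) < k := by
    have : 0 < k := by omega
    exact_mod_cast this
  obtain ⟨l0, hl0⟩ := Filter.eventually_atTop.1 (ev_le (1 / th) 1 1 one_pos)
  refine ⟨max l0 1, fun P hP hl => ?_⟩
  have hl1 : 1 ≤ Real.log P := (le_max_right _ _).trans hl
  have hl2 : 0 < Real.log P := by linarith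
  have h1 := hl0 (Real.log P) ((le_max_left _ _).trans hl)
  rw [Real.exp_log hP, pow_one, one_mul] at h1
  have h2 : 1 ≤ th * P / Real.log P := by
    rw [le_div_iff₀ hl2]
    have h3 := mul_le_mul_of_nonneg_left h1 hth.le
    have h4 : th * (1 / th * Real.log P) = Real.log P := by field_simp
    linarith
  obtain ⟨D, hD⟩ : ∃ D, D = ⌈th * P / Real.log P⌉₊ := ⟨_, rfl⟩
  have hD1 : th * P / Real.log P ≤ D := hD ▸ Nat.le_ceil _
  have hD2 : (D : ℝ) ≤ 2 * (th * P / Real.log P) := by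
    have := Nat.ceil_lt_add_one (show 0 ≤ th * P / Real.log P by linarith)
    rw [← hD] at this
    linarith
  have hD3 : (D : ℝ) * Real.log P ≤ 2 * th * P := by
    have h3 := mul_le_mul_of_nonneg_right hD2 hl2.le
    have h4 : 2 * (th * P / Real.log P) * Real.log P = 2 * th * P := by field_simp
    linarith
  obtain ⟨m0, hm0⟩ : ∃ m0, m0 = D / 16 := ⟨_, rfl⟩
  have hm1 : 16 * m0 ≤ D := by omega
  have hm2 : D ≤ 16 * (m0 + 1) := by omega
  have hm1' : (16 : ℝ) * m0 ≤ D := by exact_mod_cast hm1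
  have hm2' : (D : ℝ) ≤ 16 * (m0 + 1) := by exact_mod_cast hm2
  refine ⟨D, m0, ⟨hD1, ?_, ?_, hm1, hm2'⟩, ?_, ?_⟩
  · have h3 : 16 * k * (D * Real.log P) ≤ 16 * k * (2 * th * P) :=
      mul_le_mul_of_nonneg_left hD3 (by positivity)
    have h4 : 32 * k * th ≤ 1 := by
      rw [le_div_iff₀ (by positivity)] at hth1
      linarith
    have h5 := mul_le_mul_of_nonneg_right h4 hP.le
    linarith
  · have h3 : 20000 * th ≤ 1 := by linarith
    have h5 := mul_le_mul_of_nonneg_right h3 hP.le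
    linarith
  · have h3 := mul_le_mul_of_nonneg_right hm1' hl2.le
    have h5 : 0 < th * P := mul_pos hth hP
    linarith
  · rw [div_le_iff₀ hl2]
    rw [div_le_iff₀ hl2] at hD1
    have h3 := mul_le_mul_of_nonneg_right hm2' hl2.le
    linarith

/-- **row S.5b** -/
theorem lowers_of (C1 : ℝ) (hC1 : 2 ≤ C1) (hK : LeafK) (hM : LeafM) (hT : LeafT C1) :
    LOWERS (H245.GWf C1) StS := by
  intro k R hk hR thQ κ0 hthQ hthQ16 hκ0
  obtain ⟨c, kap, C2, hc0, hc4, hkap0, hkap1, hC20, hobj⟩ := exists_objS k R hk hR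
  obtain ⟨E, A', C0, hE, hA', hTT⟩ := hT k R hk hR
  obtain ⟨κ, hκ⟩ : ∃ κ : ℝ, κ = min κ0 (1 / 8) := ⟨_, rfl⟩
  have hκpos : 0 < κ := hκ ▸ lt_min hκ0 (by norm_num)
  have hκ0' : κ ≤ κ0 := hκ ▸ min_le_left _ _
  have hκ8 : κ ≤ 1 / 8 := hκ ▸ min_le_right _ _
  obtain ⟨C, hC⟩ : ∃ C, C = max C0 (E + 30) := ⟨_, rfl⟩
  have hCC0 : C0 ≤ C := hC ▸ le_max_left _ _
  have hCE : E + 30 ≤ C := hC ▸ le_max_right _ _
  have hk0 : (0 : ℝ) < k := by
    have : 0 < k := by omega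
    exact_mod_cast this
  obtain ⟨th, hth⟩ : ∃ th : ℝ, th = min thQ (min (1 / (32 * k)) (1 / 20000)) := ⟨_, rfl⟩
  have hth0 : 0 < th := hth ▸ lt_min hthQ (lt_min (by positivity) (by norm_num))
  have hth1 : th ≤ thQ := hth ▸ min_le_left _ _
  have hth2 : th ≤ 1 / (32 * k) := hth ▸ (min_le_right _ _).trans (min_le_left _ _)
  have hth3 : th ≤ 1 / 20000 := hth ▸ (min_le_right _ _).trans (min_le_right _ _)
  obtain ⟨P1, hP1⟩ := hobj E A' C1 κ0 (by omega) hC1 hκ0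
  obtain ⟨P2, hP2⟩ := exists_SObj k R E C κ hk hR hκpos hκ8 (by omega)
  obtain ⟨P3, hP3⟩ := hK k R E A' C κ hk hR hE hA' (by omega) hκpos hκ8
  obtain ⟨P4, hP4⟩ := hM k R E A' C κ th hk hR hE hA' (by omega) hκpos hκ8 hth0
  obtain ⟨cM, hcM0, hcM1, P5, hP5⟩ := hTT C κ th hCC0 hκpos hκ8 hth0
  obtain ⟨l1, hl1⟩ := hQ_num E C2 thQ hthQ
  obtain ⟨l2, hl2⟩ := low_num E C2 (1 / 2000) κ0 (by norm_num) hκ0
  obtain ⟨l3, hl3⟩ := err_num E C2 (264 * k) 51 (th / 16) (c * cM) (1 / 2000) (by positivity)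
    (by positivity) (by norm_num)
  obtain ⟨l4, hl4⟩ := sq_num (264 * k) 51 κ0 hκ0
  obtain ⟨l5, hl5⟩ := cap_num C (by omega)
  obtain ⟨l6, hl6⟩ := exists_D k hk th hth0 hth2 hth3
  refine ⟨κ, C, hκpos, hκ0', by omega, max (max (max P1 P2) (max P3 P4)) (max (max P5
    (Real.exp l1)) (max (max (Real.exp l2) (Real.exp l3)) (max (max (Real.exp l4) (Real.exp l5))
      (max (Real.exp l6) (Real.exp 1))))), fun P hP f N' G hfk hfl hcont hcoef hbase hst => ?_⟩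
  simp only [max_le_iff] at hP
  obtain ⟨⟨⟨g1, g2⟩, g3, g4⟩, ⟨g5, g6⟩, ⟨g7, g8⟩, ⟨g9, g10⟩, g11, g12⟩ := hP
  have hP0 : 0 < P := (Real.exp_pos _).trans_le g12
  have hle : ∀ {x : ℝ}, Real.exp x ≤ P → x ≤ Real.log P := fun h =>
    (Real.le_log_iff_exp_le hP0).2 h
  have hlog1 : 1 ≤ Real.log P := hle g12
  obtain ⟨mu, hst1, hG⟩ := hst (by omega)
  obtain rfl : G = GG N' mu := funext hG
  obtain ⟨q1, z0, hO, hq1⟩ := hP1 P g1 f hfk hfl hcont
  obtain ⟨Hw, h0, c1, c2, hS⟩ := hP2 P g2 f N' mu hfk hfl hcont hcoef hst1 hbase q1 z0 hO.tiny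
    hO.z0lt
  -- the product space
  have hne : ∀ i : {p : ℕ // p ∈ Wl (Real.log P ^ E) (P ^ 2 / Real.log P ^ A')},
      NeZero ((fun i => (i.1 : ℕ) : {p : ℕ // p ∈ Wl (Real.log P ^ E) (P ^ 2 / Real.log P ^ A')} →
        ℕ) i) := fun i => ⟨(mem_Wl.1 i.2).1.ne_zero⟩
  have hlE0 : (0 : ℝ) ≤ Real.log P ^ E := by positivity
  have hY0 : (0 : ℝ) ≤ P ^ 2 / Real.log P ^ A' := by positivity
  obtain ⟨prm, hprm⟩ : ∃ prm : {p : ℕ // p ∈ Wl (Real.log P ^ E) (P ^ 2 / Real.log P ^ A')} → ℕ,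
      prm = fun i => i.1 := ⟨_, rfl⟩
  rw [← hprm] at hne
  have hPr : PrmS E A' P prm := by
    subst hprm
    refine ⟨Subtype.val_injective, fun i => (mem_Wl.1 i.2).1, fun i => lt_of_mem_Wl hlE0 i.2,
      fun i => le_of_mem_Wl hY0 i.2, fun p h1 h2 h3 => ⟨⟨p, ?_⟩, rfl⟩⟩
    rw [mem_Wl]
    exact ⟨h1, (Nat.floor_lt hlE0).2 h2, Nat.le_floor h3⟩
  obtain ⟨K, e, e', u, u', s0, rho, ee, hKP⟩ := hP3 P g3 _ prm f N' mu q1 z0 Hw h0 c1 c2 hPr hS
  obtain ⟨D, m0, hND, hm0a, hm0b⟩ := hl6 P hP0 (hle g11)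
  have hmain := hP4 P g4 _ prm f N' mu q1 z0 Hw h0 c1 c2 hPr hS K e e' u u' s0 rho ee hKP D m0 hND
  have htop := hP5 P g5 _ prm f N' mu q1 z0 Hw h0 c1 c2 hPr hS K e e' u u' s0 rho ee hKP D m0 _
    hND rfl
  have hexp : Real.exp (Real.log P) = P := Real.exp_log hP0
  have hqn1 : (1 : ℝ) ≤ qnul f q1 z0 := by exact_mod_cast hO.qn1
  have hX0 : 0 ≤ cM * (P / Real.log P ^ 2) := by positivity
  have hA : Real.exp (50 * (P / Real.log P ^ C) + 1) ≤
      Real.exp (51 * Real.exp (Real.log P) / Real.log P ^ 3) := by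
    have h1 := hl5 (Real.log P) (hle g10)
    rw [hexp] at h1 ⊢
    exact Real.exp_le_exp.2 h1
  have hqnle := hO.qnle
  refine lowat_S (S := 264 * k * Real.exp (Real.log P) / Real.log P ^ 10) hO hc0 hkap0 hq1 hS hPr
    hKP hP0 hlog1 (by positivity) ?_ hX0 rfl ?_ (Q1_num hthQ.le hP0.le)
    (Q4_num hκ8 hthQ16 hP0.le hbase.lo) hmain htop ?_ ?_ ?_ ?_
  · rw [div_le_one (by positivity)]
    exact one_le_pow₀ hlog1
  · have h1 := hl1 (Real.log P) (hle g6) m0 ⌊Real.exp (2 * Real.log P * m0)⌋₊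
      ⌊Real.exp (cM * (P / Real.log P ^ 2))⌋₊ (qnul f q1 z0)
      (Nat.floor_le (Real.exp_pos _).le) ?_ ?_ hqnle
    · rw [hexp] at h1
      exact h1
    · rw [hexp]
      have := mul_le_mul_of_nonneg_right hth1 hP0.le
      linarith
    · refine (Nat.floor_le (Real.exp_pos _).le).trans (Real.exp_le_exp.2 ?_)
      rw [hexp]
      have : 0 ≤ P / Real.log P ^ 2 := by positivity
      nlinarith
  · have h1 := sum_rateE prm hPr.inj (fun i => (hPr.prime i).pos) (Real.log P) hlog1 A' hA'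
      (fun i => by
        rw [show Real.exp (2 * Real.log P) = P ^ 2 by
          rw [show (2 : ℝ) * Real.log P = ((2 : ℕ) : ℝ) * Real.log P by norm_num,
            Real.exp_nat_mul, Real.exp_log hP0]]
        exact hPr.hi i) (132 * k) (by positivity)
    refine h1.trans (le_of_eq ?_)
    ring
  · intro S' hS0 hSS mm hmm
    refine hl3 (Real.log P) (hle g8) m0 N' S' _ (qnul f q1 z0) _ mm hS0 hSS
      (Real.exp_pos _).le hA hqn1 hqnle ?_ (Real.exp_pos _).le ?_ hmm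
    · rw [hexp]
      exact hm0b
    · rw [hexp]
      apply le_of_eq
      congr 1
      ring
  · intro dn mm hdn hmm
    have h1 := hl2 (Real.log P) (hle g7) N' (qnul f q1 z0) dn mm hqn1 hqnle
      (by rw [hexp]; exact hdn) hmm
    rw [hexp] at h1
    exact h1
  · intro S' hSS
    have h1 := hl4 (Real.log P) (hle g9) N' S' _ hSS (Real.exp_pos _).le hA
    rw [hexp] at h1
    exact h1

end Vale.Agent.P042.H419
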