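import Vale.Agent.P042.H419.Ctx

set_option autoImplicit false

/-!
P042, target S: existence of the objects on the integers (windows, classes).
-/

namespace Vale.Agent.P042.H419

open Polynomial Finset Vale.Agent.P042.SS Vale.Agent.P042.H74 Vale.Agent.P042.H739
  Vale.Agent.P042.H452 Vale.Agent.P042.H945 Vale.Agent.P042.H359 Vale.Agent.P042.H599
  Vale.Agent.P042.H758

theorem rst_ac (x : ℕ → ℝ) (M : ℕ) (S : ℕ → Prop) : AC (rst x M S) x M := by
  classical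
  intro i _ h
  unfold rst
  split_ifs
  · rw [h, zero_div]
  · rfl

/-- no cell is heavy -/
theorem QS_cell {k : ℕ} {κ : ℝ} {C : ℕ} {P : ℝ} {N' : ℕ} {mu : ℕ → ℝ}
    (hQ : QS k κ C P N' mu) (hlaw : Law mu 1 N') (hl : 0 ≤ Real.log P) (hP : 0 ≤ P)
    {D w u v : ℕ} (hD1 : 1 ≤ D) (hD : (D : ℝ) ≤ Real.exp (P / (4 * k))) (hw : w < D)
    (hu : 1 ≤ u) (hv : v ≤ N') (hN : N' ≤ 1000 * (v + 1 - u)) {ε : ℝ} (hε : 0 ≤ ε)
    (hη : etaS κ C P * (2 * k * Real.log D + 7) ≤ Real.log (1 + ε)) :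
    D * ms mu N' (cl D w u v) * N' ≤ (1 + ε) * ((v + 1 - u : ℕ) : ℝ) := by
  have hN0 : 0 < N' := hlaw.pos
  have hV0 : 0 < v + 1 - u := by omega
  have hV : (0 : ℝ) < ((v + 1 - u : ℕ) : ℝ) := by exact_mod_cast hV0
  have hm0 := ms_nonneg hlaw (cl D w u v)
  rcases hm0.eq_or_lt with h0 | h0
  · rw [← h0, mul_zero, zero_mul]
    positivity
  rcases lt_or_ge (D * ms mu N' (cl D w u v) * N')
    (Real.exp (-(P / (100 * Real.log P))) * ((v + 1 - u : ℕ) : ℝ)) with h1 | h1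
  · refine h1.le.trans (mul_le_mul_of_nonneg_right ?_ hV.le)
    have : Real.exp (-(P / (100 * Real.log P))) ≤ 1 := by
      apply Real.exp_le_one_iff.2
      have : 0 ≤ P / (100 * Real.log P) := by positivity
      linarith
    linarith
  · have h2 := hQ D w u v hD1 hD hw hu hv hN h0 h1
    have h3 : 0 ≤ lamS / Real.log P * ∑ p ∈ WS P with ¬ p ∣ D,
        klc (rst mu N' (cl D w u v)) mu N' p := by
      apply mul_nonneg
      · apply div_nonneg _ hl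
        unfold lamS
        norm_num
      · refine sum_nonneg fun p hp => ?_
        rw [mem_filter] at hp
        have hp1 : p.Prime := (mem_filter.1 hp.1).2
        exact klc_nonneg (rst_law hlaw h0) hlaw (rst_ac _ _ _) hp1.pos
    have h4 : Real.log (D * ms mu N' (cl D w u v) * N' / ((v + 1 - u : ℕ) : ℝ)) ≤
        Real.log (1 + ε) := by linarith
    have hD0 : (0 : ℝ) < D := by exact_mod_cast hD1
    have hN0' : (0 : ℝ) < N' := by exact_mod_cast hN0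
    have h5 := (Real.log_le_log_iff (by positivity) (by linarith)).1 h4
    rwa [div_le_iff₀ hV] at h5

theorem cmass_cell (g : ℤ → ℝ) {q : ℕ} [NeZero q] (w : ZMod q) (a V : ℕ) :
    cmass g q w (a : ℤ) V = ∑ n ∈ cellZ q w.val (a + 1) (a + V), g n := by
  unfold cmass cellZ
  refine sum_congr ?_ fun _ _ => rfl
  ext n
  simp only [mem_filter, mem_Ioc, mem_Icc]
  have h1 : (n : ZMod q) = w ↔ n % (q : ℤ) = (w.val : ℤ) := by
    rw [← ZMod.val_intCast]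
    constructor
    · intro h; rw [h]
    · intro h
      exact ZMod.val_injective _ (by exact_mod_cast h)
  rw [h1]
  push_cast
  constructor
  · rintro ⟨⟨h2, h3⟩, h4⟩
    exact ⟨⟨by omega, h3⟩, h4⟩
  · rintro ⟨⟨h2, h3⟩, h4⟩
    exact ⟨⟨by omega, h3⟩, h4⟩

theorem GG_eq (N' : ℕ) (mu : ℕ → ℝ) : ∀ n : ℤ, GG N' mu n =
    if 1 ≤ n then (N' : ℝ) * mu n.toNat else 0 := fun _ => rfl

/-- the two classes -/
theorem exists_classes {k : ℕ} {κ : ℝ} {C : ℕ} {P : ℝ} {N' : ℕ} {mu : ℕ → ℝ}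
    (hQ : QS k κ C P N' mu) (hlaw : Law mu 1 N') (hl : 0 ≤ Real.log P) (hP : 0 ≤ P)
    {q : ℕ} (hq1 : 1 ≤ q) (hq : (q : ℝ) ≤ Real.exp (P / (4 * k)))
    (hη : etaS κ C P * (2 * k * Real.log q + 7) ≤ Real.log (1 + 1 / 8000))
    {Hw h0 : ℕ} (hN : N' ≤ 1000 * h0) (h3 : 3 * Hw + 3 * h0 ≤ N') (s : ℤ) :
    ∃ c1 c2 : ℕ, c1 < q ∧ c2 < q ∧ ((q : ℕ) : ℤ) ∣ (c1 : ℤ) - c2 - s ∧
      (h0 : ℝ) / 2 ≤ q * ∑ n ∈ cellZ q c1 (3 * Hw + h0 + 1) (3 * Hw + 2 * h0), GG N' mu n ∧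
      (h0 : ℝ) / 2 ≤ q * ∑ n ∈ cellZ q c2 1 h0, GG N' mu n := by
  have hne : NeZero q := ⟨by omega⟩
  have hN0 : 0 < N' := hlaw.pos
  have hcell : ∀ (z : ℤ) (V : ℕ), 0 ≤ z → z + V ≤ N' → h0 ≤ V →
      ∀ w : ZMod q, q * cmass (GG N' mu) q w z V ≤ (1 + 1 / 8000) * V := by
    intro z V hz hzV hhV w
    obtain ⟨a, rfl⟩ : ∃ a : ℕ, z = a := ⟨z.toNat, (Int.toNat_of_nonneg hz).symm⟩
    rw [cmass_cell, sum_cellZ' (GG_eq N' mu) (by omega) (by omega)]
    have h1 := QS_cell hQ hlaw hl hP hq1 hq (ZMod.val_lt w) (u := a + 1) (v := a + V) (by omega)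
      (by omega) (by omega) (ε := 1 / 8000) (by norm_num) hη
    have h2 : a + V + 1 - (a + 1) = V := by omega
    rw [h2] at h1
    linarith
  obtain ⟨w, hw1, hw2⟩ := two_cells (q := q) (g := GG N' mu) (N' := N') (h0 := h0)
    (ε := 1 / 8000) (sum_all (GG_eq N' mu) hlaw) hcell (by norm_num) (by norm_num) hN
    ((3 * Hw + h0 : ℕ) : ℤ) ((0 : ℕ) : ℤ) (by omega) (by omega) (by omega) (by omega) (by simp)
    (by omega) (by simp) (by omega) s
  rw [cmass_cell] at hw1 hw2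
  refine ⟨w.val, (w - (s : ZMod q)).val, ZMod.val_lt _, ZMod.val_lt _, ?_, ?_, ?_⟩
  · rw [← ZMod.intCast_zmod_eq_zero_iff_dvd]
    push_cast
    rw [ZMod.natCast_zmod_val, ZMod.natCast_zmod_val]
    ring
  · have e1 : 3 * Hw + h0 + h0 = 3 * Hw + 2 * h0 := by ring
    rwa [e1] at hw1
  · simpa using hw2

/-- numbers -/
theorem obj_num (k E C : ℕ) (κ a : ℝ) (hk : 1 ≤ k) (hκ : 0 < κ) (hEC : E + 1 ≤ C) (ha : 0 ≤ a) :
    ∃ l0 : ℝ, 1 ≤ l0 ∧ ∀ l : ℝ, l0 ≤ l →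
      (2 * (a + Real.log 4 * l ^ E) ≤ Real.exp l / (4 * k)) ∧
      6 / (κ * l ^ C) * (2 * k * (2 * (a + Real.log 4 * l ^ E)) + 7) ≤ Real.log (1 + 1 / 8000) ∧
      8 ≤ Real.exp l := by
  have hk0 : (0 : ℝ) < k := by exact_mod_cast hk
  have h4 : 0 < Real.log 4 := Real.log_pos (by norm_num)
  obtain ⟨l1, hl1⟩ := Filter.eventually_atTop.1
    (H74.NumS.ev_le (2 * (a + Real.log 4)) (1 / (4 * k)) E (by positivity))
  have hδ : 0 < Real.log (1 + 1 / 8000) := Real.log_pos (by norm_num)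
  set X : ℝ := 6 * (2 * k * (2 * (a + Real.log 4)) + 7) / (κ * Real.log (1 + 1 / 8000)) with hX
  refine ⟨max (max l1 X) 8, le_trans (by norm_num) (le_max_right _ _), fun l hl => ?_⟩
  have h8 : 8 ≤ l := (le_max_right _ _).trans hl
  have hlX : X ≤ l := ((le_max_right _ _).trans (le_max_left _ _)).trans hl
  have hll1 : l1 ≤ l := ((le_max_left _ _).trans (le_max_left _ _)).trans hl
  have hl0 : 0 < l := by linarith
  have hlE : 1 ≤ l ^ E := one_le_pow₀ (by linarith)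
  have hb : a + Real.log 4 * l ^ E ≤ (a + Real.log 4) * l ^ E := by nlinarith
  refine ⟨?_, ?_, ?_⟩
  · have h1 := hl1 l hll1
    calc 2 * (a + Real.log 4 * l ^ E) ≤ 2 * (a + Real.log 4) * l ^ E := by linarith
      _ ≤ 1 / (4 * k) * Real.exp l := h1
      _ = Real.exp l / (4 * k) := by ring
  · have h1 : 2 * k * (2 * (a + Real.log 4 * l ^ E)) + 7 ≤
        (2 * k * (2 * (a + Real.log 4)) + 7) * l ^ E := by
      have := mul_le_mul_of_nonneg_left hb (show (0 : ℝ) ≤ 2 * k * 2 by positivity)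
      nlinarith
    have h2 : κ * l ^ C ≥ κ * (l * l ^ E) := by
      have : l * l ^ E ≤ l ^ C := by
        rw [← pow_succ']
        exact pow_le_pow_right₀ (by linarith) hEC
      exact mul_le_mul_of_nonneg_left this hκ.le
    have h3 : 6 / (κ * l ^ C) ≤ 6 / (κ * (l * l ^ E)) :=
      div_le_div_of_nonneg_left (by norm_num) (by positivity) h2
    calc 6 / (κ * l ^ C) * (2 * k * (2 * (a + Real.log 4 * l ^ E)) + 7) ≤
        6 / (κ * (l * l ^ E)) * ((2 * k * (2 * (a + Real.log 4)) + 7) * l ^ E) := by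
          gcongr
      _ = 6 * (2 * k * (2 * (a + Real.log 4)) + 7) / (κ * l) := by
          field_simp
      _ ≤ Real.log (1 + 1 / 8000) := by
          rw [div_le_iff₀ (by positivity)]
          rw [hX, div_le_iff₀ (by positivity)] at hlX
          linarith
  · have := Real.add_one_le_exp l
    linarith

/-- **the objects on the integers**, for a given substitution -/
theorem exists_SObj (k R E C : ℕ) (κ : ℝ) (hk : 2 ≤ k) (hR : 1 ≤ R) (hκ : 0 < κ)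
    (hκ8 : κ ≤ 1 / 8) (hEC : E + 1 ≤ C) : ∃ P0 : ℝ, ∀ P : ℝ, P0 ≤ P →
    ∀ (f : ℤ[X]) (N' : ℕ) (mu : ℕ → ℝ), f.natDegree = k → 0 < f.leadingCoeff →
    (∀ g : ℤ, (∀ j : ℕ, 1 ≤ j → g ∣ f.coeff j) → g ∣ (R : ℤ)) →
    (∀ j : ℕ, |(f.coeff j : ℝ)| ≤ Real.exp (2 * k * κ * P)) →
    StS1 k κ C P N' mu → Base6 f κ P N' (GG N' mu) →
    ∀ q1 z0 : ℕ, TinyD f (Ts E P) (Vp k R) q1 (z0 : ℤ) → z0 < q1 →
    ∃ Hw h0 c1 c2 : ℕ, SObj k R E C κ P f N' mu q1 z0 Hw h0 c1 c2 := by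
  have hsf : (1 : ℝ) ≤ (sfac k * R : ℝ) := by
    have h1 : 1 ≤ sfac k * R := Nat.mul_pos (sfac_pos k) hR
    exact_mod_cast h1
  obtain ⟨l0, hl01, hl0⟩ := obj_num k E C κ (Real.log (sfac k * R : ℝ)) (by omega) hκ hEC
    (Real.log_nonneg hsf)
  refine ⟨Real.exp l0, fun P hP f N' mu hfk hfl hcont hcoef hst hbase q1 z0 hT hz => ?_⟩
  have hP0 : 0 < P := (Real.exp_pos _).trans_le hP
  have hl : l0 ≤ Real.log P := (Real.le_log_iff_exp_le hP0).2 hP
  obtain ⟨n1, n2, n3⟩ := hl0 (Real.log P) hl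
  rw [Real.exp_log hP0] at n1 n3
  have hl1 : 1 ≤ Real.log P := hl01.trans hl
  have hlE : (0 : ℝ) ≤ Real.log P ^ E := by positivity
  have hTle : ∀ p ∈ Ts E P, (p : ℝ) ≤ Real.log P ^ E := fun p hp => by
    have h1 := mem_range.1 (mem_filter.1 hp).1
    exact (Nat.le_floor_iff hlE).1 (by omega)
  have hq1 : (q1 : ℝ) ≤ (sfac k * R : ℝ) * Real.exp (Real.log 4 * Real.log P ^ E) := by
    have := qone_le_exp (k := k) hR hT.prime hlE hTle
    rwa [qone, ← hT.q1_eq] at this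
  have hqn := qnul_le_exp hR hT hlE hTle
  have hqn1 : 1 ≤ qnul f q1 z0 := qnul_pos z0 hT.q1_pos
  have hqn0 : (0 : ℝ) < qnul f q1 z0 := by exact_mod_cast hqn1
  have hlog : Real.log (qnul f q1 z0) ≤
      2 * (Real.log (sfac k * R : ℝ) + Real.log 4 * Real.log P ^ E) := by
    have h1 := Real.log_le_log hqn0 hqn
    rw [Real.log_mul (by positivity) (Real.exp_pos _).ne', Real.log_exp, Real.log_pow] at h1
    have h2 : 0 ≤ Real.log 4 * Real.log P ^ E :=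
      mul_nonneg (Real.log_nonneg (by norm_num)) hlE
    push_cast at h1
    linarith
  have hq : (qnul f q1 z0 : ℝ) ≤ Real.exp (P / (4 * k)) := by
    rw [← Real.log_le_iff_le_exp hqn0]
    exact hlog.trans n1
  have hη0 : 0 ≤ 6 / (κ * Real.log P ^ C) := by positivity
  have hη : etaS κ C P * (2 * k * Real.log (qnul f q1 z0) + 7) ≤ Real.log (1 + 1 / 8000) := by
    refine le_trans ?_ n2
    unfold etaS
    refine mul_le_mul_of_nonneg_left ?_ hη0
    have : (0 : ℝ) ≤ 2 * k := by positivity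
    have := mul_le_mul_of_nonneg_left hlog this
    linarith
  -- the windows
  have hN1 : 1000 ≤ N' := by
    have h1 := hbase.lo
    have h2 : (7 : ℝ) ≤ (1 - κ) * P := by nlinarith
    have h3 : Real.exp 7 ≤ N' := (Real.exp_le_exp.2 h2).trans h1
    have h4 : (1000 : ℝ) ≤ Real.exp 7 := by
      have h5 := Real.exp_one_gt_d9
      have h6 : Real.exp 7 = Real.exp 1 ^ 7 := by
        rw [← Real.exp_nat_mul]; norm_num
      rw [h6]
      have h7 : (2.7182818283 : ℝ) ^ 7 ≤ Real.exp 1 ^ 7 := by gcongr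
      norm_num at h7 ⊢
      linarith
    exact_mod_cast h4.trans h3
  obtain ⟨Hw, hHw⟩ : ∃ Hw, Hw = N' / 10 := ⟨_, rfl⟩
  obtain ⟨h0, hh0⟩ : ∃ h0, h0 = N' / 200 := ⟨_, rfl⟩
  obtain ⟨c1, c2, hc1, hc2, hcls, hm1, hm2⟩ := exists_classes hst.Q hst.law (by linarith) hP0.le
    hqn1 hq hη (Hw := Hw) (h0 := h0) (by omega) (by omega) (f.eval (z0 : ℤ))
  exact ⟨Hw, h0, c1, c2, hk, hR, hfk, hfl, hcont, hcoef, hst, hbase, hT, hz, hqn, hq1,
    by omega, by omega, by omega, by omega, by omega, by omega, hc1, hc2, hcls, hm1, hm2⟩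

end Vale.Agent.P042.H419
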