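import Vale.Agent.P042.H48.TopA
import Vale.Agent.P042.H188.Hlev
import Vale.Agent.P042.H527.OmC

set_option autoImplicit false
set_option linter.unusedSectionVars false

/-!
P042, S.7: the weighted energy of one window, from the absolute second moments of the cells, the
class inequality and the numbers.
-/

namespace Vale.Agent.P042.H419

open Finset Vale.Agent.P042.SS
open Vale.Agent.P042.TT.Loc (wt ten dl uo uk mask ex nW)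
open Vale.Agent.P042.H461 (W ip Hc gm)
open Vale.Agent.P042.H944 (pF sum_pF zc Eng EngC Ytop omc uo_push nW_eq_ip)
open Vale.Agent.P042.H188
open Vale.Agent.P042.H527 (Zom)

variable {ι : Type} [Fintype ι] [DecidableEq ι] {V : ι → Type} [∀ i, Fintype (V i)]
  [∀ i, DecidableEq (V i)] {w : ∀ i, V i → ℝ} {red : ℤ → ∀ i, V i}

/-- **one window** -/
theorem window_le (prm : ι → ℕ) (hprm : ∀ i, 1 ≤ prm i)
    (hcard : ∀ i, Fintype.card (V i) ≤ prm i) (m : ℕ) (hm : 2 ≤ m) (rho r0 : ι → ℝ) (cc : ℝ)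
    (hrho : ∀ i, 0 ≤ rho i) (hr1 : ∀ i, r0 i ≤ 1) (hcc : 0 ≤ cc)
    (hsr : ∀ i, (8 * m + 32) * (2 * rho i) ≤ r0 i)
    (hs1 : ∀ i, (8 * m * (1 + cc)) ^ 2 * (2 * rho i) ≤ 1)
    (h0 : ∀ i a, 0 ≤ w i a) (h1 : ∀ i, ∑ a, w i a = 1)
    (kk d : ℕ) (hd : (kk : ℝ) + 2 * ∑ i, (8 * m * (1 + cc)) ^ 2 * (2 * rho i) ≤ d)
    {S : Finset ℤ} {f : ℤ → ℝ} (hw : ∀ n ∈ S, f n ≠ 0 → W w (red n) ≠ 0)
    (Pr : Finset ℕ) {X0 τ τ0 C0 c0 : ℝ} (hX0 : 0 < X0) (hC0 : 0 ≤ C0)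
    (hττ : 2 ≤ m * (τ - τ0)) (hτ : 0 ≤ τ)
    (g : ℕ → ℕ) (M M0 J : ℕ) (y : ℤ) (kw : ℕ → ℕ → ℝ) (Gm σ lam0 ε1 ε2 : ℝ) (QQ : Finset ℕ)
    (hE : ∀ sg ∈ SGt Pr (M0 * Real.exp (2 ^ (J - 1) * lam0)),
      ∀ (T : Finset ι) (a : ∀ i, V i), T.card ≤ d →
      TT.Loc.en w r0 (UU.Loc.tr w (d - T.card) (TT.Loc.restr T a (pF w red (tcell S sg) f))) ≤
        (∏ _i ∈ T, cc) ^ 2 * (C0 * (c0 * (X0 * (sg.1 : ℝ) ^ τ0 / sg.1)) ^ 2))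
    (D : Finset (Finset ι)) (hD : ∀ C ∈ D, C.card ≤ kk)
    (hNC : ∀ (T : Finset ι) (x : ∀ i, V i), T.card ≤ d → (∀ i ∈ T, w i (x i) ≠ 0) →
      H188.NC prm red (fun _ => 1 / (8 * m * (1 + cc))) w Pr T x)
    (hS : S ⊆ Ioc y (y + M))
    (hPr : ∀ p ∈ Pr, p.Prime) (hg : ∀ p ∈ Pr, 1 ≤ g p) (hkw : ∀ p j, 0 ≤ kw p j)
    (hf0 : ∀ n ∈ S, 0 ≤ f n) (hf1 : ∀ n ∈ S, f n ≤ Gm) (hGm : 0 < Gm) (hM : 1 ≤ M)
    (hJ : 1 ≤ J) (hGJ : Real.log (Gm * (M / X0)) ≤ 2 ^ J)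
    (hlam : 0 < lam0) (hσ : 4 ≤ σ * lam0) (h10 : 0 ≤ ε1) (h11 : ε1 ≤ 1)
    (h20 : 0 ≤ ε2) (h21 : ε2 ≤ 1)
    (hcap : ∀ T : Finset ι, T.card ≤ d →
      (∏ i ∈ T, (prm i : ℝ)) * (M0 * Real.exp (5 * 2 ^ J * lam0)) ≤ M)
    (hQ : ∀ k ∈ QQ, 1 < k ∧ k ≤ M0 ∧ (∀ p ∈ k.primeFactors, p ∈ Pr) ∧
      (spn g k : ℝ) ≤ Real.exp (2 ^ (J - 1) * lam0))
    (hh1 : ∀ p ∈ Pr, ∀ v, 1 ≤ v → v ≤ g p →
      kw p v * (24 * 2 ^ J * ((p ^ g p : ℕ) : ℝ) ^ (τ + σ)) ≤ ε1)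
    (hh2 : ∑ q2 ∈ (QQ.image (hi g)).erase 1, kapProd kw q2 * (q2 : ℝ) ^ (2 * τ) ≤ ε2) :
    Ytop w red rho D QQ (fun m2 => kapProd kw m2) S f ≤
      384 * (ε1 + ε2) * (2 * (C0 * c0 ^ 2) + 1) * X0 ^ 2 := by
  have hm0 : (0 : ℝ) < m := by exact_mod_cast (by omega : 0 < m)
  have hY0 : (0 : ℝ) ≤ M0 * Real.exp (2 ^ (J - 1) * lam0) := by positivity
  have hq0 : 0 ≤ 1 / (8 * (m : ℝ) * (1 + cc)) := by positivity
  have hm2 : (2 : ℝ) ≤ m := by exact_mod_cast hm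
  have hq1 : 1 / (8 * (m : ℝ) * (1 + cc)) ≤ 1 := by
    rw [div_le_one (by positivity)]
    nlinarith
  have key := H48.Top.ytop_le m hm rho r0 (fun _ => cc) hrho hr1 (fun _ => hcc) hsr hs1 h0 h1 kk d
    hd hw (SGt Pr (M0 * Real.exp (2 ^ (J - 1) * lam0))) (tcell S) (fun sg _ => tcell_sub S sg)
    (fun sg => C0 * (c0 * (X0 * (sg.1 : ℝ) ^ τ0 / sg.1)) ^ 2)
    (fun sg => X0 * (sg.1 : ℝ) ^ τ / sg.1)
    (by
      intro sg hsg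
      unfold SGt at hsg
      rw [mem_sigma, mem_DM hY0] at hsg
      have hd1 : (1 : ℝ) ≤ (sg.1 : ℝ) := by exact_mod_cast hsg.1.1
      have hd0 : (0 : ℝ) < (sg.1 : ℝ) := by linarith
      have := Real.rpow_pos_of_pos hd0 τ
      positivity)
    (fun sg _ => by positivity)
    (fun sg hsg T a hT _ => hE sg hsg T a hT) D hD QQ (fun m2 => kapProd kw m2)
    (fun m2 _ => by
      unfold kapProd
      exact prod_nonneg fun p _ => hkw _ _)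
    (64 * (ε1 + ε2) * X0 ^ 2) (by positivity)
    (fun T x => Real.sqrt (max 1 (Zom prm (fun _ => 1 / (8 * (m : ℝ) * (1 + cc))) w T x))) 2
    (by norm_num)
    (fun T _ => H527.ex_sqrt_Zom_le prm _ w T (fun i _ => hcard i) (fun i _ => hprm i)
      (fun _ _ => hq0) (fun _ _ => hq1) h0 h1)
    (by
      intro T x hT hx A _ hA
      have h2 := hlev_S (hNC T x hT hx) g M M0 J y S f kw A Gm X0 τ σ lam0 ε1 ε2 QQ hS hPr hg hkw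
        hf0 hf1 hGm hM hX0 hJ hGJ hτ hlam hσ h10 h11 h20 h21 (hcap T hT) hA hQ hh1 hh2
      refine h2.trans (le_of_eq ?_)
      ring)
  refine key.trans ?_
  have h3 := sum_SGt Pr (M0 * Real.exp (2 ^ (J - 1) * lam0)) C0 c0 X0 τ τ0 m (by omega) hY0 hC0
    hX0 hττ
  have h4 : 0 ≤ 2 * (64 * (ε1 + ε2) * X0 ^ 2) * (1 + 2) := by positivity
  have h5 := mul_le_mul_of_nonneg_left (add_le_add_left h3 1) h4
  refine le_trans (le_trans (le_of_eq ?_) h5) (le_of_eq ?_)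
  · ring
  · ring

end Vale.Agent.P042.H419
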